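import Mathlib.Analysis.SpecialFunctions.Pow.Real
import Mathlib.Analysis.SpecialFunctions.Trigonometric.Basic
import Mathlib.Data.Finset.Card
import Mathlib.Data.Finset.Prod

/-!
# P076 / BG / FIN : the window lemma as a finite counting theorem (helper732)

`N` grid scales of `m` bits, `δ = 2 ^ (-N m)`.  `p : Z3` = cell `(time, position)` in the cube of side `2 ^ (N m)`,
`dv k p` = coarser cell (side `2 ^ k`), `prj v k p` = projection along the slope `v` at the scale `2 ^ k`.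

* `Cfg` : the finite configuration given by a stable nearly linear window of a flat near-critical system of flags.
* `StFIN` : there is no such configuration.
* `StRSG` : integer grid version of the ring theorem `P118.OF.StRS` (`D = 1`), uniform in `kp`.
* `StSEL` : selection of a frame and of a Frostman family of fourth directions.
* `StPOP` : popular values of one coordinate of a set with three small projections.
-/

set_option autoImplicit false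

namespace Vale.Agent.P076.H732

/-- cells -/
abbrev Z3 := ℤ × (Fin 2 → ℤ)

/-- the cell of side `2 ^ k` -/
def dv (k : ℕ) (p : Z3) : Z3 := (p.1 / 2 ^ k, fun i => p.2 i / 2 ^ k)

/-- projection along the slope `v` at the scale `2 ^ k` -/
noncomputable def prj (v : Fin 2 → ℝ) (k : ℕ) (p : Z3) : Fin 2 → ℤ :=
  fun i => ⌊((p.2 i : ℝ) - p.1 * v i) / 2 ^ k⌋

/-- normal coordinate (`= P122.AN.fn`) -/
noncomputable def nc (θ : ℝ) (v : Fin 2 → ℝ) : ℝ := -Real.sin θ * v 0 + Real.cos θ * v 1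

/-- cross product -/
def cr (u v : Fin 2 → ℝ) : ℝ := u 0 * v 1 - u 1 * v 0

/-- twice the area of the triangle `u, v, w` -/
def tri (u v w : Fin 2 → ℝ) : ℝ := cr (u - w) (v - w)

open Classical in
/-- the finite configuration: `P` cells, `Th` directions of slopes `v`, `μ` law of (cell, direction) -/
structure Cfg {ι : Type} (kp E d : ℝ) (N m : ℕ) (P : Finset Z3) (Th : Finset ι) (v : ι → Fin 2 → ℝ) (μ : Z3 → ι → ℝ) :
    Prop where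
  nn : ∀ p θ, 0 ≤ μ p θ
  mass : 1 / 2 ≤ ∑ p ∈ P, ∑ θ ∈ Th, μ p θ
  le : ∑ p ∈ P, ∑ θ ∈ Th, μ p θ ≤ 1
  box : ∀ p ∈ P, (0 ≤ p.1 ∧ p.1 < 2 ^ (N * m)) ∧ ∀ i, 0 ≤ p.2 i ∧ p.2 i < 2 ^ (N * m)
  vb : ∀ θ ∈ Th, ∀ i, |v θ i| ≤ (2:ℝ) ^ (E * N * m)
  /-- number of cells of level `j` -/
  c1 : ∀ j ≤ N, ((P.image (dv ((N - j) * m))).card : ℝ) ≤ (2:ℝ) ^ ((3 * kp * j + E * N) * m)
  /-- number of finest cells in a cell of level `j` -/
  c2 : ∀ j ≤ N, ∀ c : Z3, ((P.filter fun p => dv ((N - j) * m) p = c).card : ℝ) ≤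
    (2:ℝ) ^ ((3 * kp * ((N : ℝ) - j) + E * N) * m)
  /-- the projections along an active direction are small -/
  c3 : ∀ θ ∈ Th, ∀ i j : ℕ, i ≤ j → j ≤ N → ∀ c : Z3,
    (((P.filter fun p => μ p θ ≠ 0 ∧ dv ((N - i) * m) p = c).image (prj (v θ) ((N - j) * m))).card : ℝ) ≤
      (2:ℝ) ^ ((2 * kp * ((j : ℝ) - i) + E * N) * m)
  /-- the law of the cell is flat -/
  up : ∀ p ∈ P, ∑ θ ∈ Th, μ p θ ≤ (2:ℝ) ^ (-(3 * kp - E) * N * m)
  /-- number of all directions -/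
  th : (Th.card : ℝ) ≤ (2:ℝ) ^ ((d + E) * N * m)
  /-- the law of the direction given the cell is flat, with (nearly) the same exponent: stability -/
  flat : ∀ p ∈ P, ∀ θ ∈ Th, μ p θ ≤ (2:ℝ) ^ (-(d - E) * N * m) * ∑ θ' ∈ Th, μ p θ'
  /-- the directions at a cell are not concentrated in caps -/
  cap : ∀ p ∈ P, ∀ j ≤ N, ∀ c : Fin 2 → ℝ, ∑ θ ∈ Th.filter (fun θ => ∀ i, |v θ i - c i| ≤ (2:ℝ) ^ (-((j : ℝ) * m))), μ p θ ≤
    (2:ℝ) ^ (-(2 / 3 * j - E * N) * m) * ∑ θ' ∈ Th, μ p θ'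
  /-- the directions at a cell are not concentrated in strips -/
  str : ∀ p ∈ P, ∀ ϑ r : ℝ, ∑ θ ∈ Th.filter (fun θ => |nc ϑ (v θ) - r| ≤ (2:ℝ) ^ (-(E * N * m))), μ p θ ≤
    1 / (1000 * (N:ℝ) ^ 2) * ∑ θ' ∈ Th, μ p θ'

/-- **[FIN]** -/
def StFIN : Prop := ∀ a b : ℝ, 0 < a → a ≤ b → b < 1 → ∃ (E : ℝ) (N m₀ : ℕ), 0 < E ∧ 1 ≤ N ∧
  ∀ (m : ℕ) (kp d : ℝ), m₀ ≤ m → a ≤ kp → kp ≤ b → ∀ {ι : Type} (P : Finset Z3) (Th : Finset ι) (v : ι → Fin 2 → ℝ)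
    (μ : Z3 → ι → ℝ), ¬ Cfg kp E d N m P Th v μ

open Classical in
/-- regular set of integers of absolute value at most `2 ^ (N m)`, at the scales `2 ^ (j m)` -/
structure GReg (kp E : ℝ) (N m : ℕ) (X : Finset ℤ) : Prop where
  bd : ∀ x ∈ X, |(x : ℝ)| ≤ (2:ℝ) ^ ((1 + E) * N * m)
  up : ∀ j ≤ N, ∀ c : ℤ, ((X.filter fun x => x / 2 ^ ((N - j) * m) = c).card : ℝ) ≤
    (2:ℝ) ^ ((kp * ((N : ℝ) - j) + E * N) * m)
  cov : ∀ j ≤ N, ((X.image fun x => x / 2 ^ ((N - j) * m)).card : ℝ) ≤ (2:ℝ) ^ ((kp * j + E * N) * m)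

open Classical in
/-- **[RSG]** integer grid version of the ring theorem (multipliers `al i`, `i ∈ J`, counted with multiplicity) -/
def StRSG : Prop := ∀ a b sg : ℝ, 0 < a → a ≤ b → b < 1 → 0 < sg → ∃ (E : ℝ) (N₀ : ℕ), 0 < E ∧ ∀ N : ℕ, N₀ ≤ N → 1 ≤ N →
  ∃ m₀ : ℕ, ∀ (m : ℕ) (kp : ℝ), m₀ ≤ m → a ≤ kp → kp ≤ b → ∀ {ι : Type} (X Y : Finset ℤ) (J : Finset ι) (al : ι → ℝ)
    (G : ι → Finset (ℤ × ℤ)) (W : ι → Finset ℝ), GReg kp E N m X → GReg kp E N m Y → J.Nonempty →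
    (∀ i ∈ J, (2:ℝ) ^ (-(E * N * m)) ≤ |al i| ∧ |al i| ≤ (2:ℝ) ^ (E * N * m)) →
    (∀ j ≤ N, ∀ x : ℝ, ((J.filter fun i => |al i - x| ≤ (2:ℝ) ^ (-((j : ℝ) * m))).card : ℝ) ≤
      (2:ℝ) ^ ((-(sg * j) + E * N) * m) * J.card) →
    (∀ i ∈ J, (∀ z ∈ G i, z.1 ∈ X ∧ z.2 ∈ Y) ∧ (2:ℝ) ^ ((2 * kp - E) * N * m) ≤ ((G i).card : ℝ) ∧
      ((W i).card : ℝ) ≤ (2:ℝ) ^ ((kp + E) * N * m) ∧
      ∀ z ∈ G i, ∃ w ∈ W i, |(z.1 : ℝ) + al i * z.2 - w| ≤ (2:ℝ) ^ (E * N * m)) → False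

open Classical in
/-- **[SEL]** a frame `θ₁, θ₂, θ₃` and a family `J` of fourth directions, Frostman in the pencil at `θ₃`, with large common
sets of cells -/
def StSEL : Prop := ∃ (C sg : ℝ), 0 < C ∧ 0 < sg ∧ ∀ (E : ℝ) (N : ℕ), 0 < E → E ≤ 1 → 1 ≤ E * N → ∃ m₀ : ℕ,
  ∀ (m : ℕ) (kp d : ℝ), m₀ ≤ m → 0 ≤ kp → ∀ {ι : Type} (P : Finset Z3) (Th : Finset ι) (v : ι → Fin 2 → ℝ)
    (μ : Z3 → ι → ℝ), Cfg kp E d N m P Th v μ →
    ∃ (t₁ t₂ t₃ : ι) (J : Finset ι) (S : ι → Finset Z3), t₁ ∈ Th ∧ t₂ ∈ Th ∧ t₃ ∈ Th ∧ J ⊆ Th ∧ J.Nonempty ∧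
      (2:ℝ) ^ (-(C * E * N * m)) ≤ |tri (v t₁) (v t₂) (v t₃)| ∧
      (∀ t ∈ J, (2:ℝ) ^ (-(C * E * N * m)) ≤ |tri (v t₁) (v t) (v t₃)| ∧
        (2:ℝ) ^ (-(C * E * N * m)) ≤ |tri (v t₂) (v t) (v t₃)| ∧
        (2:ℝ) ^ ((3 * kp - C * E) * N * m) ≤ ((S t).card : ℝ) ∧
        ∀ p ∈ S t, p ∈ P ∧ μ p t₁ ≠ 0 ∧ μ p t₂ ≠ 0 ∧ μ p t₃ ≠ 0 ∧ μ p t ≠ 0) ∧
      ∀ j ≤ N, ∀ ϑ : ℝ, ((J.filter fun t => |nc ϑ (v t - v t₃)| ≤ (2:ℝ) ^ (-((j : ℝ) * m))).card : ℝ) ≤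
        (2:ℝ) ^ ((-(sg * j) + C * E * N) * m) * J.card

open Classical in
/-- **[POP]** popular values of the coordinate `x` of a finite set `S` (abstract form).  `f j`, `x j`, `q j` = cell,
coordinate and projection of the level `j ≤ N`, `κ` = multiplicities, `y, z` = the two other coordinates. -/
def StPOP : Prop := ∀ {α β γ : Type} [Nonempty β] (S : Finset α) (N : ℕ) (x y z : α → ℤ) (f : ℕ → α → β) (xc : ℕ → ℤ → ℤ) (q : ℕ → α → γ)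
  (κ lam M : ℝ) (A₁ A₂ A₃ A₄ : ℕ → ℝ), 1 ≤ κ → 0 < lam → 0 ≤ M →
    -- the coordinates determine the point, the pairs are few
    (∀ a b c : ℤ, ((S.filter fun s => x s = a ∧ y s = b ∧ z s = c).card : ℝ) ≤ κ) →
    ((S.image fun s => (x s, y s)).card : ℝ) ≤ M → ((S.image fun s => (x s, z s)).card : ℝ) ≤ M →
    -- number of cells, of points in a cell, of projections, of projections in a cell
    (∀ j ≤ N, ((S.image (f j)).card : ℝ) ≤ A₁ j) → (∀ j ≤ N, ∀ c, ((S.filter fun s => f j s = c).card : ℝ) ≤ A₂ j) →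
    (∀ j ≤ N, ((S.image (q j)).card : ℝ) ≤ A₃ j) →
    (∀ j ≤ N, ∀ c, (((S.filter fun s => f j s = c).image (q N)).card : ℝ) ≤ A₄ j) →
    -- multiplicities
    (∀ j ≤ N, ∀ c, (((S.filter fun s => f j s = c).image fun s => xc j (x s)).card : ℝ) ≤ κ) →
    (∀ j ≤ N, ∀ a r, (((S.filter fun s => xc j (x s) = a ∧ q j s = r).image (f j)).card : ℝ) ≤ κ) →
    (∀ a r, ((S.filter fun s => x s = a ∧ q N s = r).card : ℝ) ≤ κ) →
    -- conclusion for the popular values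
    ((S.filter fun s => ((S.filter fun s' => x s' = x s).card : ℝ) < lam).card : ℝ) ≤ Real.sqrt (lam * κ) * M ∧
    (∀ j ≤ N, ∀ c, (((S.image x).filter fun a => lam ≤ ((S.filter fun s => x s = a).card : ℝ) ∧ xc j a = c).card : ℝ) * lam ≤
      κ * A₃ j * A₂ j) ∧
    (∀ j ≤ N, ((((S.image x).filter fun a => lam ≤ ((S.filter fun s => x s = a).card : ℝ)).image (xc j)).card : ℝ) * lam ≤
      κ ^ 2 * A₄ j * A₁ j)

end Vale.Agent.P076.H732
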