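import Vale.Agent.P076.H732.FinDefs

/-!
# P076 / BG / FIN : the geometric statements (helper732)

* `lf u v p` : linear functional of the cell `p` which vanishes on the directions of slopes `u` and `v`; `xf` its integer part.
* `StGEO` : popular values of a coordinate in a transversal frame of active directions; Loomis-Whitney.
* `StRAT` : the ratio `alf` of the coordinates of the fourth direction.
-/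

set_option autoImplicit false

namespace Vale.Agent.P076.H732

/-- functional which vanishes on the directions of slopes `u` and `v` -/
noncomputable def lf (u v : Fin 2 → ℝ) (p : Z3) : ℝ := cr (fun i => (p.2 i : ℝ) - p.1 * v i) (fun i => u i - v i)

/-- its integer part -/
noncomputable def xf (u v : Fin 2 → ℝ) (p : Z3) : ℤ := ⌊lf u v p⌋

open Classical in
/-- popular values -/
noncomputable def popu (x : Z3 → ℤ) (S : Finset Z3) (lam : ℝ) : Finset ℤ :=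
  (S.image x).filter fun a => lam ≤ ((S.filter fun p => x p = a).card : ℝ)

open Classical in
/-- **[GEO]** the coordinate of the direction `a` in the frame `a, b, c` -/
def StGEO : Prop := ∀ C₁ : ℝ, 1 ≤ C₁ → ∃ C₂ : ℝ, C₁ ≤ C₂ ∧ ∀ (E : ℝ) (N : ℕ), 0 < E → E ≤ 1 → 1 ≤ E * N → ∃ m₀ : ℕ,
  ∀ (m : ℕ) (kp d : ℝ), m₀ ≤ m → 0 ≤ kp → kp ≤ 1 → ∀ {ι : Type} (P : Finset Z3) (Th : Finset ι) (v : ι → Fin 2 → ℝ)
    (μ : Z3 → ι → ℝ), Cfg kp E d N m P Th v μ → ∀ (S : Finset Z3) (a b c : ι) (g : ℝ), S ⊆ P → a ∈ Th → b ∈ Th → c ∈ Th →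
    (∀ p ∈ S, μ p a ≠ 0 ∧ μ p b ≠ 0 ∧ μ p c ≠ 0) → (2:ℝ) ^ (-(C₁ * E * N * m)) ≤ |tri (v a) (v b) (v c)| → 0 ≤ g →
    ((S.filter fun p => ((S.filter fun p' => xf (v b) (v c) p' = xf (v b) (v c) p).card : ℝ) <
      (2:ℝ) ^ ((2 * kp - g) * N * m)).card : ℝ) ≤ (2:ℝ) ^ ((3 * kp - g / 2 + C₂ * E) * N * m) ∧
    GReg kp (g + C₂ * E) N m (popu (xf (v b) (v c)) S ((2:ℝ) ^ ((2 * kp - g) * N * m))) ∧
    (S.card : ℝ) ^ 2 ≤ (2:ℝ) ^ ((4 * kp + C₂ * E) * N * m) *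
      ((S.image fun p => (xf (v b) (v c) p, xf (v a) (v c) p)).card : ℝ)

/-- the multiplier of the slope `w` -/
noncomputable def alf (u₁ u₂ u₃ w : Fin 2 → ℝ) : ℝ := tri w u₂ u₃ / tri u₁ w u₃

/-- the coordinate of `w` along `u₂` -/
noncomputable def bef (u₁ u₂ u₃ w : Fin 2 → ℝ) : ℝ := tri u₁ w u₃ / tri u₁ u₂ u₃

/-- admissible fourth slope, `Λ = 2 ^ (C₁ E N m)` -/
structure Ok4 (Λ : ℝ) (u₁ u₂ u₃ w : Fin 2 → ℝ) : Prop where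
  bd : ∀ i, |w i| ≤ Λ
  t1 : Λ⁻¹ ≤ |tri u₁ w u₃|
  t2 : Λ⁻¹ ≤ |tri u₂ w u₃|

/-- **[RAT]** -/
def StRAT : Prop := ∃ C : ℝ, 1 ≤ C ∧ ∀ (Λ : ℝ) (u₁ u₂ u₃ : Fin 2 → ℝ), 2 ≤ Λ → (∀ i, |u₁ i| ≤ Λ) → (∀ i, |u₂ i| ≤ Λ) →
  (∀ i, |u₃ i| ≤ Λ) → Λ⁻¹ ≤ |tri u₁ u₂ u₃| →
  (∀ w, Ok4 Λ u₁ u₂ u₃ w → Λ ^ (-C) ≤ |alf u₁ u₂ u₃ w| ∧ |alf u₁ u₂ u₃ w| ≤ Λ ^ C ∧ Λ ^ (-C) ≤ |bef u₁ u₂ u₃ w| ∧
    ∀ p, lf w u₃ p = bef u₁ u₂ u₃ w * (lf u₂ u₃ p + alf u₁ u₂ u₃ w * lf u₁ u₃ p)) ∧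
  ∀ x : ℝ, ∃ ϑ : ℝ, ∀ (w : Fin 2 → ℝ) (r : ℝ), Ok4 Λ u₁ u₂ u₃ w → |alf u₁ u₂ u₃ w - x| ≤ r → |nc ϑ (w - u₃)| ≤ Λ ^ C * r

end Vale.Agent.P076.H732
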