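import Vale.Agent.P127.U.Ent

/-!
# P076 / BG : copies with an explicit law (helper732)

`cpS S W N` : the system of `N + 1` copies of `S`, conditionally independent given `W`; `cpE j` : the extension given by the
copy `j`.  `cw_prE` : probability of an event by conditioning on all copies but one.
-/

set_option autoImplicit false

namespace Vale.Agent.P076.H732

open Filter Topology Vale.Agent.P127 Vale.Agent.P127.Stk Vale.Agent.P127.U Vale.Agent.P127.U.Sys

section fin

variable {Ω : Type} [Fintype Ω] {A B : Type*}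

open Classical in
/-- summation over the fibres of a finer variable -/
theorem sum_fib (P : Law Ω) (X : Ω → A) (W : Ω → B) (hWX : ∀ ω ω', X ω = X ω' → W ω = W ω') (E : Ω → Prop) {q : ℝ}
    (h : ∀ ω0, 0 < P.w ω0 → ∑ ω with X ω = X ω0 ∧ E ω, P.w ω ≤ q * P.pr X (X ω0)) (s : B) :
    ∑ ω with W ω = s ∧ E ω, P.w ω ≤ q * P.pr W s := by
  have e1 : ∑ ω with W ω = s ∧ E ω, P.w ω = ∑ x ∈ img X, ∑ ω with (W ω = s ∧ E ω) ∧ X ω = x, P.w ω := by
    rw [← Finset.sum_fiberwise_of_maps_to (s := Finset.univ.filter fun ω => W ω = s ∧ E ω) (t := img X) (g := X)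
      (fun ω _ => mem_img.2 ⟨ω, rfl⟩)]
    refine Finset.sum_congr rfl fun x _ => ?_
    rw [Finset.filter_filter]
  have e2 : P.pr W s = ∑ x ∈ img X, ∑ ω with W ω = s ∧ X ω = x, P.w ω := by
    unfold Law.pr
    rw [← Finset.sum_fiberwise_of_maps_to (s := Finset.univ.filter fun ω => W ω = s) (t := img X) (g := X)
      (fun ω _ => mem_img.2 ⟨ω, rfl⟩)]
    refine Finset.sum_congr rfl fun x _ => ?_
    rw [Finset.filter_filter]
  rw [e1, e2, Finset.mul_sum]
  refine Finset.sum_le_sum fun x _ => ?_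
  by_cases hx : ∃ ω0, 0 < P.w ω0 ∧ X ω0 = x ∧ W ω0 = s
  · obtain ⟨ω0, h0, rfl, rfl⟩ := hx
    have e3 : (Finset.univ.filter fun ω => (W ω = W ω0 ∧ E ω) ∧ X ω = X ω0) =
        Finset.univ.filter fun ω => X ω = X ω0 ∧ E ω := by
      ext ω
      simp only [Finset.mem_filter, Finset.mem_univ, true_and]
      constructor
      · rintro ⟨⟨_, h2⟩, h3⟩
        exact ⟨h3, h2⟩
      · rintro ⟨h3, h2⟩
        exact ⟨⟨hWX _ _ h3, h2⟩, h3⟩
    have e4 : (Finset.univ.filter fun ω => W ω = W ω0 ∧ X ω = X ω0) = Finset.univ.filter fun ω => X ω = X ω0 := by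
      ext ω
      simp only [Finset.mem_filter, Finset.mem_univ, true_and]
      exact ⟨fun h => h.2, fun h => ⟨hWX _ _ h, h⟩⟩
    rw [e3, e4]
    exact h ω0 h0
  · have hz : ∀ ω, X ω = x → W ω = s → P.w ω = 0 := by
      intro ω h1 h2
      by_contra h3
      exact hx ⟨ω, lt_of_le_of_ne (P.nn ω) (Ne.symm h3), h1, h2⟩
    rw [Finset.sum_eq_zero, Finset.sum_eq_zero, mul_zero]
    · intro ω hω
      simp only [Finset.mem_filter, Finset.mem_univ, true_and] at hω
      exact hz ω hω.2 hω.1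
    · intro ω hω
      simp only [Finset.mem_filter, Finset.mem_univ, true_and] at hω
      exact hz ω hω.2 hω.1.1

open Classical in
/-- probability of an event by conditioning on all copies but one -/
theorem cw_prE {P : Law Ω} {W : Ω → B} {N : ℕ} {Q : Law (Fin (N + 1) → Ω)} (hQ : ∀ w, Q.w w = cw P W N w) (i : Fin (N + 1))
    (E : (Fin (N + 1) → Ω) → Prop) {q : ℝ}
    (h : ∀ (v : Fin N → Ω) (s : B), (∀ j, 0 < P.w (v j)) → (∀ j, W (v j) = s) →
      ∑ ω with W ω = s ∧ E (i.insertNth ω v : Fin (N + 1) → Ω), P.w ω ≤ q * P.pr W s) :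
    prE Q E ≤ q := by
  have key : ∀ f : (Fin (N + 1) → Ω) → ℝ, ∑ w, Q.w w * f w =
      ∑ v : Fin N → Ω, ∑ s ∈ img W, ck_aux P W N s v * ∑ ω with W ω = s, P.w ω * f (i.insertNth ω v : Fin (N + 1) → Ω) := by
    intro f
    rw [← Fintype.sum_equiv (Fin.insertNthEquiv (fun _ => Ω) i)
      (fun p : Ω × (Fin N → Ω) => Q.w (i.insertNth p.1 p.2 : Fin (N + 1) → Ω) *
        f (i.insertNth p.1 p.2 : Fin (N + 1) → Ω)) _ (fun p => rfl)]
    rw [Fintype.sum_prod_type, Finset.sum_comm]
    refine Finset.sum_congr rfl fun v _ => ?_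
    rw [← Finset.sum_fiberwise_of_maps_to (s := (Finset.univ : Finset Ω)) (t := img W) (g := W)
      (fun ω _ => mem_img.2 ⟨ω, rfl⟩)]
    refine Finset.sum_congr rfl fun s _ => ?_
    rw [Finset.mul_sum]
    refine Finset.sum_congr rfl fun ω hω => ?_
    have hs : W ω = s := by simpa using hω
    rw [hQ, cw_insert_aux, hs]
    ring
  have e1 : prE Q E = ∑ w, Q.w w * (if E w then 1 else 0) := by
    unfold prE
    rw [Finset.sum_filter]
    refine Finset.sum_congr rfl fun w _ => ?_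
    split_ifs <;> simp
  have e2 : q = q * ∑ w, Q.w w * 1 := by simp [Q.sum_one]
  rw [e1, e2, key, key, Finset.mul_sum]
  refine Finset.sum_le_sum fun v _ => ?_
  rw [Finset.mul_sum]
  refine Finset.sum_le_sum fun s _ => ?_
  unfold ck_aux
  by_cases hv : ∀ j, W (v j) = s
  · rw [if_pos hv]
    by_cases hp : ∀ j, 0 < P.w (v j)
    · have h1 := h v s hp hv
      have h2 : ∑ ω with W ω = s, P.w ω * (if E (i.insertNth ω v : Fin (N + 1) → Ω) then (1:ℝ) else 0) =
          ∑ ω with W ω = s ∧ E (i.insertNth ω v : Fin (N + 1) → Ω), P.w ω := by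
        rw [← Finset.filter_filter, Finset.sum_filter (p := fun ω => E (i.insertNth ω v : Fin (N + 1) → Ω))]
        refine Finset.sum_congr rfl fun ω _ => ?_
        split_ifs <;> simp
      have h3 : ∑ ω with W ω = s, P.w ω * 1 = P.pr W s := by
        unfold Law.pr
        exact Finset.sum_congr rfl fun ω _ => mul_one _
      rw [h2, h3]
      have h4 : 0 ≤ (∏ j, P.w (v j)) / P.pr W s ^ N :=
        div_nonneg (Finset.prod_nonneg fun j _ => P.nn _) (pow_nonneg (P.pr_nonneg _ _) _)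
      nlinarith [mul_le_mul_of_nonneg_left h1 h4]
    · push Not at hp
      obtain ⟨j, hj⟩ := hp
      have h0 : ∏ j, P.w (v j) = 0 := Finset.prod_eq_zero (Finset.mem_univ j) (le_antisymm hj (P.nn _))
      rw [h0]
      simp
  · rw [if_neg hv]
    simp

end fin

section sys

variable (S : Sys) {α β γ : Type*} (W : S.RV α) (N : ℕ)

/-- the law of the copies -/
noncomputable def cpL (i : ℕ) : Law (Fin (N + 1) → S.Ω i) := Classical.choose (cw_exists (S.P i) (W i) N)

theorem cpL_w (i : ℕ) (w : Fin (N + 1) → S.Ω i) : (cpL S W N i).w w = cw (S.P i) (W i) N w :=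
  Classical.choose_spec (cw_exists (S.P i) (W i) N) w

/-- `N + 1` copies of `S`, conditionally independent given `W` -/
noncomputable def cpS : Sys := ⟨fun i => Fin (N + 1) → S.Ω i, fun _ => inferInstance, cpL S W N, S.L, S.Ltop⟩

/-- the copy `j` -/
def cpE (j : Fin (N + 1)) : Ext (cpS S W N) S :=
  ⟨fun _ w => w j, rfl, fun i ω => cw_marg (cpL_w S W N i) j ω⟩

theorem cpS_nm : (cpS S W N).nm = S.nm := rfl

theorem cp_supp {i : ℕ} {w : (cpS S W N).Ω i} (hw : 0 < ((cpS S W N).P i).w w) :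
    (∀ j, W i (w j) = W i (w 0)) ∧ ∀ j, 0 < (S.P i).w (w j) :=
  cw_supp (cpL_w S W N i) hw

/-- conditional independence -/
theorem cp_indep (j : Fin (N + 1)) (X : S.RV β) (Y : (cpS S W N).RV γ)
    (hY : ∀ i (w w' : Fin (N + 1) → S.Ω i), (∀ k, k ≠ j → w k = w' k) → Y i w = Y i w') :
    (cpS S W N).hc ((cpE S W N j).pull X) (Sys.pr Y ((cpE S W N j).pull W)) = S.hc X W := by
  refine ulim_congr (Eventually.of_forall fun i => ?_)
  have h1 := cw_indep (cpL_w S W N i) j (X i) (Y i) (fun w w' h => hY i w w' h)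
  show Stk.hc (cpL S W N i) _ _ / S.nm i = _
  rw [← h1]
  rfl

end sys

end Vale.Agent.P076.H732
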