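import Vale.Agent.P076.H732.LWd

/-!
# P076 / BG / LW1 (helper732): Loomis-Whitney in one window, recovery of the small ball
-/

set_option autoImplicit false

namespace Vale.Agent.P076.H732

open Filter Topology Finset Vale.Agent.P127 Vale.Agent.P127.Stk Vale.Agent.P127.U Vale.Agent.P127.U.Sys
  Vale.Agent.P122.C2 Vale.Agent.P122.E Vale.Agent.P122.H518

section lw

variable {K : ℕ} (F : Flg K) {s w : ℕ}

/-- the box of integer points near `(t, o)` -/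
noncomputable def bxx (t : ℤ) (o : Z2) (M : ℕ) : Finset (ℤ × Z2) :=
  Finset.Icc (t - M) (t + M) ×ˢ Fintype.piFinset fun k => Finset.Icc (o k - M) (o k + M)

theorem bxx_card (t : ℤ) (o : Z2) (M : ℕ) : (bxx t o M).card = (2 * M + 1) ^ 3 := by
  unfold bxx
  rw [Finset.card_product, Fintype.card_piFinset]
  have h : ∀ a : ℤ, (Finset.Icc (a - M) (a + M)).card = 2 * M + 1 := by
    intro a
    rw [Int.card_Icc]
    omega
  simp only [h, Finset.prod_const, Finset.card_univ, Fintype.card_fin]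
  ring

theorem mem_bxx {t t' : ℤ} {o o' : Z2} {M : ℕ} (h1 : |t' - t| ≤ M) (h2 : ∀ k, |o' k - o k| ≤ M) : (t', o') ∈ bxx t o M := by
  unfold bxx
  rw [Finset.mem_product, Fintype.mem_piFinset]
  have a1 := abs_le.1 h1
  refine ⟨?_, fun k => ?_⟩
  · rw [Finset.mem_Icc]
    constructor <;> linarith [a1.1, a1.2]
  · have a2 := abs_le.1 (h2 k)
    rw [Finset.mem_Icc]
    constructor <;> linarith [a2.1, a2.2]

/-- outside of the rare event the coordinates determine the small ball up to `O(n)` bits -/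
theorem rec_fin (hw : w ≤ K) {i : ℕ} (hn : 1 ≤ F.n i) {ω ω' : Fin 3 → F.S.Ω i} (hω : 0 < ((C3 F s).P i).w ω)
    (hN : ¬ NT F w i ω)
    (h : Sys.pr (Sys.pr (xx F s w 0 1) (Sys.pr (xx F s w 0 2) (xx F s w 1 2))) (ZZ F s w) i ω' =
      Sys.pr (Sys.pr (xx F s w 0 1) (Sys.pr (xx F s w 0 2) (xx F s w 1 2))) (ZZ F s w) i ω) :
    NS.bl F s i (ω' 0) ∈ bxx (NS.bl F s i (ω 0)).1 (NS.bl F s i (ω 0)).2 (113 * 4 ^ F.n i) := by
  have hsupp := cp_supp F.S (NS.bl F s) 2 hω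
  have hZ : ZZ F s w i ω' = ZZ F s w i ω := congrArg Prod.snd h
  have h01 : xx F s w 0 1 i ω' = xx F s w 0 1 i ω := congrArg (fun q => q.1.1) h
  have h02 : xx F s w 0 2 i ω' = xx F s w 0 2 i ω := congrArg (fun q => q.1.2.1) h
  have h12 : xx F s w 1 2 i ω' = xx F s w 1 2 i ω := congrArg (fun q => q.1.2.2) h
  have hu : ∀ j k, |sl F w i (ω j) k| ≤ 1 := fun j k => sl_le F (hsupp.2 j) hw k
  have hp : (0:ℝ) < 2 ^ (s * F.n i) := by positivity
  have hC := C_quarter F (NS.Kpos F) hn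
  have key : ∀ a b : Fin 3, xx F s w a b i ω' = xx F s w a b i ω →
      |X3 (oo F i (ω' 0)) (tt F i (ω' 0)) (sl F w i (ω a)) (sl F w i (ω b)) -
        X3 (oo F i (ω 0)) (tt F i (ω 0)) (sl F w i (ω a)) (sl F w i (ω b))| ≤ 2 ^ (s * F.n i) := by
    intro a b hab
    have h3 : xx F s w a b i ω' =
        ⌊X3 (oo F i (ω' 0)) (tt F i (ω' 0)) (sl F w i (ω a)) (sl F w i (ω b)) / 2 ^ (s * F.n i)⌋ := by
      unfold xx
      rw [ZZ_eq hZ a, ZZ_eq hZ b]
    have h4 : xx F s w a b i ω =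
        ⌊X3 (oo F i (ω 0)) (tt F i (ω 0)) (sl F w i (ω a)) (sl F w i (ω b)) / 2 ^ (s * F.n i)⌋ := rfl
    rw [h3, h4] at hab
    have h5 := floor_eq_close hab
    rwa [← sub_div, abs_div, abs_of_pos hp, div_le_iff₀ hp, one_mul] at h5
  have hd : (0:ℝ) < (F.C / 2 ^ F.n i) ^ 2 := by positivity
  obtain ⟨c1, c2⟩ := close3 hd (not_lt.1 hN) (hu 0) (hu 1) (hu 2) hp.le (key 1 2 h12) (key 0 2 h02) (key 0 1 h01)
  have h4n : ((4:ℝ) ^ F.n i) = 2 ^ F.n i * 2 ^ F.n i := by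
    rw [← mul_pow]
    norm_num
  have hp2 : (0:ℝ) < 2 ^ F.n i := by positivity
  have hd2 : (2:ℝ) ^ (s * F.n i) / (F.C / 2 ^ F.n i) ^ 2 ≤ 16 * 4 ^ F.n i * 2 ^ (s * F.n i) := by
    rw [div_le_iff₀ hd, div_pow, h4n]
    have e1 : 16 * (2 ^ F.n i * 2 ^ F.n i) * (2:ℝ) ^ (s * F.n i) * (F.C ^ 2 / (2 ^ F.n i) ^ 2) =
        (16 * F.C ^ 2) * 2 ^ (s * F.n i) := by
      field_simp
    rw [e1]
    have h2 : 1 ≤ 16 * F.C ^ 2 := by nlinarith
    nlinarith
  have hM : ∀ x : ℝ, x ≤ 7 * ((2:ℝ) ^ (s * F.n i) / (F.C / 2 ^ F.n i) ^ 2) →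
      x ≤ ((112 * 4 ^ F.n i : ℕ) : ℝ) * ((2 ^ (s * F.n i) : ℕ) : ℝ) := by
    intro x hx
    push_cast
    nlinarith
  have hq0 : (0:ℝ) ≤ (2:ℝ) ^ (s * F.n i) / (F.C / 2 ^ F.n i) ^ 2 := by positivity
  have hN2 : 0 < 2 ^ (s * F.n i) := by positivity
  have hM2 : ∀ x : ℤ, x ≤ ((112 * 4 ^ F.n i : ℕ) : ℤ) + 1 → x ≤ ((113 * 4 ^ F.n i : ℕ) : ℤ) := by
    intro x hx
    have h1 : (1:ℤ) ≤ 4 ^ F.n i := one_le_pow₀ (by norm_num)
    push_cast at hx ⊢
    linarith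
  refine mem_bxx ?_ fun k => ?_
  · have h6 := Vale.Agent.P122.K931.ediv_close (a := (F.N 0 i (ω' 0)).T) (b := (F.N 0 i (ω 0)).T)
      (N := 2 ^ (s * F.n i)) (C := 112 * 4 ^ F.n i) hN2 (hM _ (by
        have h7 : |((F.N 0 i (ω' 0)).T : ℝ) - (F.N 0 i (ω 0)).T| ≤ _ := c1
        linarith))
    push_cast at h6
    refine hM2 _ ?_
    push_cast
    exact h6
  · have h6 := Vale.Agent.P122.K931.ediv_close (a := (F.N 0 i (ω' 0)).o k) (b := (F.N 0 i (ω 0)).o k)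
      (N := 2 ^ (s * F.n i)) (C := 112 * 4 ^ F.n i) hN2 (hM _ (c2 k))
    push_cast at h6
    refine hM2 _ ?_
    push_cast
    exact h6

/-- the entropy of the small ball given the three coordinates and the directions -/
theorem rec_hc {c1 : ℝ} (hc1 : 0 < c1) (hT : NS.TG0 F c1) (hw1 : 1 ≤ w) (hw : w ≤ K) :
    (C3 F s).hc ((e3 F s 0).pull (NS.bl F s))
      (Sys.pr (Sys.pr (xx F s w 0 1) (Sys.pr (xx F s w 0 2) (xx F s w 1 2))) (ZZ F s w)) ≤ 6 / K := by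
  have hK := NS.Kpos F
  have hK0 : (0:ℝ) < K := by exact_mod_cast hK
  have hC := Vale.Agent.P122.K931.C_nonneg F
  obtain ⟨c0, hc01, hc0'⟩ : ∃ c0 : ℕ, 1 ≤ c0 ∧ F.C + 1 + (F.C + 2) * K ≤ c0 := by
    refine ⟨⌈F.C + 1 + (F.C + 2) * K⌉₊ + 1, by omega, ?_⟩
    push_cast
    have := Nat.le_ceil (F.C + 1 + (F.C + 2) * K)
    linarith
  have hlc : 0 ≤ Real.log (3 * c0) := Real.log_nonneg (by
    have : (1:ℝ) ≤ c0 := by exact_mod_cast hc01
    linarith)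
  refine Vale.Agent.P122.H540.hc_le_rare ((e3 F s 0).tame (NS.tame_bl F s)) (rare_NT F hK hc1 hT hw1 hw s) _
    (Real.log 2 + 3 * Real.log 227) (6 + 3 * Real.log (3 * c0)) (by linarith) ?_
  filter_upwards [n_pos F, (C3 F s).nm_tendsto.eventually_ge_atTop 1] with i hn hnm
  have hl2 : 0 < Real.log 2 := Real.log_pos (by norm_num)
  have hnm2 : (C3 F s).nm i = K * F.n i * Real.log 2 := by
    show (F.S.L i : ℝ) * Real.log 2 = _
    rw [F.L_eq i]
    push_cast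
    ring
  have h1 := Stk.hc_le_exc ((C3 F s).P i) (NT F w i) ((e3 F s 0).pull (NS.bl F s) i)
    (Sys.pr (Sys.pr (xx F s w 0 1) (Sys.pr (xx F s w 0 2) (xx F s w 1 2))) (ZZ F s w) i)
    ((2 * (c0 * 2 ^ (2 * K * F.n i)) + 1) ^ 3) ((2 * (113 * 4 ^ F.n i) + 1) ^ 3) (Nat.one_le_pow _ _ (by omega))
    ⟨bxx 0 0 (c0 * 2 ^ (2 * K * F.n i)), le_of_eq (bxx_card _ _ _), fun ω hω => by
      have hsupp := cp_supp F.S (NS.bl F s) 2 hω
      have hT := Vale.Agent.P122.K931.T_bd F (hsupp.2 0) (Nat.zero_le K)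
      have hO := fun k => Vale.Agent.P122.K931.o_bd F (hsupp.2 0) (Nat.zero_le K) k
      have hpz : (1:ℤ) ≤ 2 ^ (s * F.n i) := one_le_pow₀ (by norm_num)
      have hc01' : (1:ℤ) ≤ c0 := by exact_mod_cast hc01
      refine mem_bxx ?_ fun k => ?_
      · show |(F.N 0 i (ω 0)).T / 2 ^ (s * F.n i) - 0| ≤ _
        rw [sub_zero, abs_of_nonneg (Int.ediv_nonneg hT.1 (zero_le_one.trans hpz))]
        refine (Int.ediv_le_self _ hT.1).trans (hT.2.le.trans ?_)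
        push_cast
        have : (0:ℤ) < 2 ^ (2 * K * F.n i) := by positivity
        nlinarith
      · have h2 : |(F.N 0 i (ω 0)).o k| ≤ ((c0 * 2 ^ (2 * K * F.n i) : ℕ) : ℤ) := by
          have h3 : |((F.N 0 i (ω 0)).o k : ℝ)| ≤ c0 * 2 ^ (2 * K * F.n i) :=
            (hO k).trans (mul_le_mul_of_nonneg_right hc0' (by positivity))
          have h4 : ((|(F.N 0 i (ω 0)).o k| : ℤ) : ℝ) ≤ (((c0 * 2 ^ (2 * K * F.n i) : ℕ) : ℤ) : ℝ) := by
            push_cast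
            exact h3
          exact_mod_cast h4
        have h5 := abs_le.1 h2
        show |(F.N 0 i (ω 0)).o k / 2 ^ (s * F.n i) - 0| ≤ _
        rw [sub_zero, abs_le]
        set M : ℤ := ((c0 * 2 ^ (2 * K * F.n i) : ℕ) : ℤ) with hM
        have hM0 : 0 ≤ M := by positivity
        constructor
        · rw [Int.le_ediv_iff_mul_le (zero_lt_one.trans_le hpz)]
          nlinarith [h5.1]
        · refine Int.ediv_le_of_le_mul (zero_lt_one.trans_le hpz) ?_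
          nlinarith [h5.2]⟩
    (fun ω hω hN => ⟨bxx (NS.bl F s i (ω 0)).1 (NS.bl F s i (ω 0)).2 (113 * 4 ^ F.n i), le_of_eq (bxx_card _ _ _),
      fun ω' _ _ h => rec_fin F hw hn hω hN h⟩)
  refine h1.trans ?_
  have h2 : Real.log (((2 * (113 * 4 ^ F.n i) + 1) ^ 3 : ℕ) : ℝ) ≤ 3 * Real.log 227 + 6 / K * (C3 F s).nm i := by
    have h3 : (((2 * (113 * 4 ^ F.n i) + 1) ^ 3 : ℕ) : ℝ) ≤ (227 * 4 ^ F.n i) ^ 3 := by
      push_cast
      refine pow_le_pow_left₀ (by positivity) ?_ 3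
      have : (1:ℝ) ≤ 4 ^ F.n i := one_le_pow₀ (by norm_num)
      linarith
    refine (Real.log_le_log (by positivity) h3).trans (le_of_eq ?_)
    rw [Real.log_pow, Real.log_mul (by norm_num) (by positivity), Real.log_pow, hnm2,
      show (4:ℝ) = 2 ^ 2 by norm_num, Real.log_pow]
    push_cast
    field_simp
    ring
  have h3 : Real.log (((2 * (c0 * 2 ^ (2 * K * F.n i)) + 1) ^ 3 : ℕ) : ℝ) ≤ (6 + 3 * Real.log (3 * c0)) * (C3 F s).nm i := by
    have hc01' : (1:ℝ) ≤ c0 := by exact_mod_cast hc01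
    have h4 : (((2 * (c0 * 2 ^ (2 * K * F.n i)) + 1) ^ 3 : ℕ) : ℝ) ≤ ((3 * c0) * 2 ^ (2 * K * F.n i)) ^ 3 := by
      push_cast
      refine pow_le_pow_left₀ (by positivity) ?_ 3
      have : (1:ℝ) ≤ 2 ^ (2 * K * F.n i) := one_le_pow₀ (by norm_num)
      nlinarith
    refine (Real.log_le_log (by positivity) h4).trans ?_
    rw [Real.log_pow, Real.log_mul (by positivity) (by positivity), Real.log_pow]
    have e1 : ((3:ℕ):ℝ) * (Real.log (3 * c0) + ((2 * K * F.n i : ℕ) : ℝ) * Real.log 2) =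
        3 * Real.log (3 * c0) + 6 * (C3 F s).nm i := by
      rw [hnm2]
      push_cast
      ring
    rw [e1]
    nlinarith
  rw [Vale.Agent.P122.H540.prb_eq]
  have h4 := prE_nonneg ((C3 F s).P i) (NT F w i)
  have h5 := mul_le_mul_of_nonneg_left h3 h4
  linarith

end lw

end Vale.Agent.P076.H732
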