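import Vale.Agent.P076.H732.LW1

/-!
# P076 / BG / LW1 (helper732): Loomis-Whitney in one window, end

`stLW1 : BG.StLW1`.
-/

set_option autoImplicit false

namespace Vale.Agent.P076.H732

open Filter Topology Finset Vale.Agent.P127 Vale.Agent.P127.Stk Vale.Agent.P127.U Vale.Agent.P127.U.Sys
  Vale.Agent.P122.C2 Vale.Agent.P122.E Vale.Agent.P122.H518

section lw

variable {K : ℕ} (F : Flg K) {s w : ℕ}

/-- larger balls are functions of smaller balls -/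
theorem fn_bl_bl (s w : ℕ) : Sys.Fn (NS.bl F (s + w)) (NS.bl F s) :=
  Eventually.of_forall fun i ω ω' _ _ e => by
    have h1 : (F.N 0 i ω).T / 2 ^ (s * F.n i) = (F.N 0 i ω').T / 2 ^ (s * F.n i) := congrArg Prod.fst e
    have h2 : ∀ k, (F.N 0 i ω).o k / 2 ^ (s * F.n i) = (F.N 0 i ω').o k / 2 ^ (s * F.n i) :=
      fun k => congrFun (congrArg Prod.snd e) k
    have key : ∀ a b : ℤ, a / 2 ^ (s * F.n i) = b / 2 ^ (s * F.n i) →
        a / 2 ^ ((s + w) * F.n i) = b / 2 ^ ((s + w) * F.n i) := by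
      intro a b h
      rw [add_mul, pow_add, ← Int.ediv_ediv_of_nonneg (by positivity), ← Int.ediv_ediv_of_nonneg (by positivity), h]
    show (_, _) = (_, _)
    rw [Prod.mk.injEq]
    exact ⟨key _ _ h1, funext fun k => key _ _ (h2 k)⟩

/-- the projection is known from the small ball and the direction -/
theorem z_pj (hw : w ≤ K) : F.S.hc (NS.pj F s w) (Sys.pr (NS.bl F s) (F.Y w)) = 0 := by
  refine Vale.Agent.P122.K931.zero_vec 4 _ _ (Eventually.of_forall fun i ω ω' hω hω' h k => ?_)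
  have hb : NS.bl F s i ω' = NS.bl F s i ω := congrArg Prod.fst h
  have hY : F.Y w i ω' = F.Y w i ω := congrArg Prod.snd h
  obtain ⟨b1, b2⟩ := bl_close hb
  have hp : (0:ℝ) < 2 ^ (s * F.n i) := by positivity
  have hsl1 : |sl F w i ω k| ≤ 1 := sl_le F hω hw k
  have hsl2 : sl F w i ω' = sl F w i ω := by
    unfold sl
    rw [hY]
  have h3 : NS.pj F s w i ω' k = ⌊(oo F i ω' k - tt F i ω' * sl F w i ω k) / 2 ^ (s * F.n i)⌋ := by
    rw [← hsl2]
    rfl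
  have h4 : NS.pj F s w i ω k = ⌊(oo F i ω k - tt F i ω * sl F w i ω k) / 2 ^ (s * F.n i)⌋ := rfl
  rw [h3, h4]
  have h6 : |(tt F i ω' - tt F i ω) * sl F w i ω k| ≤ 2 ^ (s * F.n i) := by
    rw [abs_mul]
    calc _ ≤ (2:ℝ) ^ (s * F.n i) * 1 := mul_le_mul b1 hsl1 (abs_nonneg _) hp.le
      _ = _ := mul_one _
  have h5 := NS.floor_near' (C := 2)
    (x := (oo F i ω' k - tt F i ω' * sl F w i ω k) / 2 ^ (s * F.n i))
    (y := (oo F i ω k - tt F i ω * sl F w i ω k) / 2 ^ (s * F.n i)) (by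
      rw [← sub_div, abs_div, abs_of_pos hp, div_le_iff₀ hp]
      have a1 := abs_le.1 h6
      have a2 := abs_le.1 (b2 k)
      push_cast
      rw [abs_le]
      constructor <;> linarith [a1.1, a1.2, a2.1, a2.2])
  push_cast at h5 ⊢
  linarith

end lw

/-- the copies agree on the variables of the small ball -/
theorem cp_agree {K : ℕ} (F : Flg K) {s : ℕ} {α : Type*} (X : F.S.RV α) (hX : Sys.Fn X (NS.bl F s)) (j k : Fin 3) :
    Sys.Fn ((e3 F s j).pull X) ((e3 F s k).pull X) := by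
  filter_upwards [hX] with i hi ω ω' hω hω' e
  have h1 := cp_supp F.S (NS.bl F s) 2 hω
  have h2 := cp_supp F.S (NS.bl F s) 2 hω'
  have g1 : X i (ω j) = X i (ω k) := hi _ _ (h1.2 j) (h1.2 k) ((h1.1 j).trans (h1.1 k).symm)
  have g2 : X i (ω' j) = X i (ω' k) := hi _ _ (h2.2 j) (h2.2 k) ((h2.1 j).trans (h2.1 k).symm)
  have e' : X i (ω k) = X i (ω' k) := e
  show X i (ω j) = X i (ω' j)
  rw [g1, g2, e']

/-- **Loomis-Whitney in one window** -/
theorem stLW1 : BG.StLW1 := by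
  refine ⟨12, by norm_num, fun c1 hc1 K F hK hT s w hw1 hws hw hsw => ?_⟩
  have hA := rec_hc (F := F) (s := s) (w := w) hc1 hT hw1 hw
  have tb := NS.tame_bl F s
  have tY := NS.tame_Y F hw
  have tp := NS.tame_pj F s hw
  have fB := fn_bl_bl F s w
  have ab := cp_agree F (NS.bl F s) (frf _)
  have aB := cp_agree F (NS.bl F (s + w)) fB
  -- Loomis-Whitney fibre in the copy `j`
  have L : ∀ j : Fin 3, (C3 F s).hc ((e3 F s 0).pull (NS.bl F s)) (Sys.pr ((e3 F s 0).pull (NS.bl F (s + w)))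
      (Sys.pr ((e3 F s j).pull (F.Y w)) ((e3 F s j).pull (NS.pj F s w)))) =
      F.S.hc (NS.bl F s) (Sys.pr (NS.bl F (s + w)) (Sys.pr (F.Y w) (NS.pj F s w))) := by
    intro j
    rw [← (e3 F s j).hc (NS.bl F s) (Sys.pr (NS.bl F (s + w)) (Sys.pr (F.Y w) (NS.pj F s w)))]
    exact hc_congr (ftr (ab 0 j) (ffst _ _)) (ftr (ab j 0) (ffst _ _))
      (fpr (ftr (aB 0 j) (ffst _ _)) (fsnd _ _)) (fpr (ftr (aB j 0) (ffst _ _)) (fsnd _ _))
  -- directions in the large ball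
  have D : ∀ j : Fin 3, (C3 F s).hc ((e3 F s j).pull (F.Y w)) ((e3 F s 0).pull (NS.bl F (s + w))) =
      F.S.hc (F.Y w) (NS.bl F (s + w)) := by
    intro j
    rw [← (e3 F s j).hc (F.Y w) (NS.bl F (s + w))]
    exact hc_congr (ffst _ _) (ffst _ _) (aB 0 j) (aB j 0)
  -- directions in the small ball
  have E : ∀ j : Fin 3, (C3 F s).hc ((e3 F s j).pull (F.Y w)) ((e3 F s 0).pull (NS.bl F s)) =
      F.S.hc (F.Y w) (NS.bl F s) := by
    intro j
    rw [← (e3 F s j).hc (F.Y w) (NS.bl F s)]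
    exact hc_congr (ffst _ _) (ffst _ _) (ab 0 j) (ab j 0)
  -- conditional independence
  have I1 : (C3 F s).hc ((e3 F s 1).pull (F.Y w)) (Sys.pr ((e3 F s 0).pull (F.Y w)) ((e3 F s 0).pull (NS.bl F s))) =
      F.S.hc (F.Y w) (NS.bl F s) := by
    rw [← cp_indep F.S (NS.bl F s) 2 1 (F.Y w) ((e3 F s 0).pull (F.Y w)) (fun i v v' h => by
      show F.Y w i (v 0) = F.Y w i (v' 0)
      rw [h 0 (by decide)])]
    exact hc_congr (ffst _ _) (ffst _ _) (fpr (ffst _ _) (ftr (ab 0 1) (fsnd _ _)))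
      (fpr (ffst _ _) (ftr (ab 1 0) (fsnd _ _)))
  have I2 : (C3 F s).hc ((e3 F s 2).pull (F.Y w)) (Sys.pr (Sys.pr ((e3 F s 0).pull (F.Y w)) ((e3 F s 1).pull (F.Y w)))
      ((e3 F s 0).pull (NS.bl F s))) = F.S.hc (F.Y w) (NS.bl F s) := by
    rw [← cp_indep F.S (NS.bl F s) 2 2 (F.Y w) (Sys.pr ((e3 F s 0).pull (F.Y w)) ((e3 F s 1).pull (F.Y w)))
      (fun i v v' h => by
        show (F.Y w i (v 0), F.Y w i (v 1)) = (F.Y w i (v' 0), F.Y w i (v' 1))
        rw [h 0 (by decide), h 1 (by decide)])]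
    exact hc_congr (ffst _ _) (ffst _ _) (fpr (ffst _ _) (ftr (ab 0 2) (fsnd _ _)))
      (fpr (ffst _ _) (ftr (ab 2 0) (fsnd _ _)))
  -- projections
  have Z : ∀ j : Fin 3, (C3 F s).hc ((e3 F s j).pull (NS.pj F s w))
      (Sys.pr ((e3 F s 0).pull (NS.bl F s)) ((e3 F s j).pull (F.Y w))) = 0 := by
    intro j
    rw [← z_pj F (s := s) hw, ← (e3 F s j).hc (NS.pj F s w) (Sys.pr (NS.bl F s) (F.Y w))]
    exact hc_congr (ffst _ _) (ffst _ _) (fpr (ftr (ab 0 j) (ffst _ _)) (fsnd _ _))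
      (fpr (ftr (ab j 0) (ffst _ _)) (fsnd _ _))
  have main := lw_sys ((e3 F s 0).tame tb) ((e3 F s 0).tame tY) ((e3 F s 1).tame tY) ((e3 F s 2).tame tY)
    ((e3 F s 0).tame tp) ((e3 F s 1).tame tp) ((e3 F s 2).tame tp) (tame_xx (F := F) (s := s) hw 0 1)
    (tame_xx (F := F) (s := s) hw 0 2) (tame_xx (F := F) (s := s) hw 1 2)
    (B := (e3 F s 0).pull (NS.bl F (s + w))) (by
      filter_upwards [fB] with i hi ω ω' hω hω' e
      have h1 := cp_supp F.S (NS.bl F s) 2 hω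
      have h2 := cp_supp F.S (NS.bl F s) 2 hω'
      exact hi _ _ (h1.2 0) (h2.2 0) e)
    (L 0) (L 1) (L 2) (D 0) (D 1) (D 2) (E 0) I1 I2 (E 1) (E 2) (Z 0) (Z 1) (Z 2)
    (zero_xx hw 0 1 0 (Or.inl rfl)) (zero_xx hw 0 2 0 (Or.inl rfl)) (zero_xx hw 0 1 1 (Or.inr rfl))
    (zero_xx hw 1 2 1 (Or.inl rfl)) (zero_xx hw 0 2 2 (Or.inr rfl)) (zero_xx hw 1 2 2 (Or.inr rfl)) hA
  have hpB : (C3 F s).hc ((e3 F s 0).pull (NS.bl F s)) ((e3 F s 0).pull (NS.bl F (s + w))) =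
      F.S.hc (NS.bl F s) (NS.bl F (s + w)) := (e3 F s 0).hc _ _
  rw [hpB] at main
  have hg : 0 ≤ BG.gw F w s := by
    unfold BG.gw
    have := hc_mono_right tY fB
    linarith
  have e1 : F.S.hc (F.Y w) (NS.bl F (s + w)) - F.S.hc (F.Y w) (NS.bl F s) = BG.gw F w s := rfl
  rw [e1] at main
  have e2 : 2 * (6 / (K:ℝ)) = 12 / K := by ring
  rw [e2] at main
  linarith

end Vale.Agent.P076.H732
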