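import Vale.Agent.P076.BG.Defs
import Vale.Agent.P076.H732.Cp
import Vale.Agent.P122.K931.Zero
import Vale.Agent.P122.H540.Tools

/-!
# P076 / BG / LW1, first part (helper732)

Geometry of three transversal directions; three copies of the direction given the small ball are transversal up to a rare
event.
-/

set_option autoImplicit false

namespace Vale.Agent.P076.H732

open Filter Topology Finset Vale.Agent.P127 Vale.Agent.P127.Stk Vale.Agent.P127.U Vale.Agent.P127.U.Sys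
  Vale.Agent.P122.C2 Vale.Agent.P122.E Vale.Agent.P076.NS Vale.Agent.P076.BG

/-! ### geometry -/

/-- the functional of `(o, T)` which vanishes on the directions of slopes `u` and `v` -/
def X3 (o : Fin 2 → ℝ) (T : ℝ) (u v : Fin 2 → ℝ) : ℝ := (o 0 - T * v 0) * (u 1 - v 1) - (o 1 - T * v 1) * (u 0 - v 0)

theorem X3_left (o : Fin 2 → ℝ) (T : ℝ) (u v : Fin 2 → ℝ) :
    X3 o T u v = (o 0 - T * u 0) * (u 1 - v 1) - (o 1 - T * u 1) * (u 0 - v 0) := by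
  unfold X3
  ring

/-- determinant of three slopes -/
def dt (u v w : Fin 2 → ℝ) : ℝ := (u 0 - v 0) * (u 1 - w 1) - (u 1 - v 1) * (u 0 - w 0)

theorem T_eq (o : Fin 2 → ℝ) (T : ℝ) (u v w : Fin 2 → ℝ) :
    T * dt u v w = X3 o T v w - X3 o T u w + X3 o T u v := by
  unfold dt X3
  ring

theorem o0_eq (o : Fin 2 → ℝ) (T : ℝ) (u v w : Fin 2 → ℝ) :
    (o 0 - T * u 0) * dt u v w = X3 o T u w * (u 0 - v 0) - X3 o T u v * (u 0 - w 0) := by
  unfold dt X3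
  ring

theorem o1_eq (o : Fin 2 → ℝ) (T : ℝ) (u v w : Fin 2 → ℝ) :
    (o 1 - T * u 1) * dt u v w = X3 o T u w * (u 1 - v 1) - X3 o T u v * (u 1 - w 1) := by
  unfold dt X3
  ring

/-- a direction -/
theorem exists_dir (a : Fin 2 → ℝ) :
    ∃ θ : ℝ, ∀ b : Fin 2 → ℝ, Real.sqrt (a 0 ^ 2 + a 1 ^ 2) * fn θ b = a 0 * b 1 - a 1 * b 0 := by
  refine ⟨Complex.arg ⟨a 0, a 1⟩, fun b => ?_⟩
  have h1 := Complex.norm_mul_cos_arg ⟨a 0, a 1⟩
  have h2 := Complex.norm_mul_sin_arg ⟨a 0, a 1⟩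
  have h3 : ‖(⟨a 0, a 1⟩ : ℂ)‖ = Real.sqrt (a 0 ^ 2 + a 1 ^ 2) := by
    rw [Complex.norm_def, Complex.normSq_mk]
    congr 1
    ring
  rw [h3] at h1 h2
  simp only at h1 h2
  unfold fn
  calc _ = (Real.sqrt (a 0 ^ 2 + a 1 ^ 2) * Real.cos (Complex.arg ⟨a 0, a 1⟩)) * b 1 -
        (Real.sqrt (a 0 ^ 2 + a 1 ^ 2) * Real.sin (Complex.arg ⟨a 0, a 1⟩)) * b 0 := by ring
    _ = _ := by rw [h1, h2]

/-- two points with close functionals are close -/
theorem close3 {o o' : Fin 2 → ℝ} {T T' ρ d : ℝ} {u v w : Fin 2 → ℝ} (hd : 0 < d) (hdt : d ≤ |dt u v w|)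
    (hu : ∀ k, |u k| ≤ 1) (hv : ∀ k, |v k| ≤ 1) (hw : ∀ k, |w k| ≤ 1) (hρ : 0 ≤ ρ)
    (h1 : |X3 o T v w - X3 o' T' v w| ≤ ρ) (h2 : |X3 o T u w - X3 o' T' u w| ≤ ρ)
    (h3 : |X3 o T u v - X3 o' T' u v| ≤ ρ) :
    |T - T'| ≤ 3 * (ρ / d) ∧ ∀ k, |o k - o' k| ≤ 7 * (ρ / d) := by
  have hdt0 : 0 < |dt u v w| := hd.trans_le hdt
  have hρd : ρ / |dt u v w| ≤ ρ / d := div_le_div_of_nonneg_left hρ hd hdt
  have key : ∀ x y : ℝ, |x * dt u v w| ≤ y * ρ → 0 ≤ y → |x| ≤ y * (ρ / d) := by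
    intro x y h hy
    rw [abs_mul] at h
    calc |x| ≤ y * ρ / |dt u v w| := by rwa [le_div_iff₀ hdt0]
      _ = y * (ρ / |dt u v w|) := by ring
      _ ≤ _ := mul_le_mul_of_nonneg_left hρd hy
  have hT : |T - T'| ≤ 3 * (ρ / d) := by
    refine key _ _ ?_ (by norm_num)
    have e : (T - T') * dt u v w = (X3 o T v w - X3 o' T' v w) - (X3 o T u w - X3 o' T' u w) +
        (X3 o T u v - X3 o' T' u v) := by
      rw [sub_mul, T_eq o, T_eq o']
      ring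
    rw [e]
    have := abs_le.1 h1
    have := abs_le.1 h2
    have := abs_le.1 h3
    rw [abs_le]
    constructor <;> linarith
  have hdiff : ∀ (x y : Fin 2 → ℝ) (k : Fin 2), |x k| ≤ 1 → |y k| ≤ 1 → |x k - y k| ≤ 2 := by
    intro x y k hx hy
    have := abs_le.1 hx
    have := abs_le.1 hy
    rw [abs_le]
    constructor <;> linarith
  have hq : ∀ k, |(o k - T * u k) - (o' k - T' * u k)| ≤ 4 * (ρ / d) := by
    intro k
    have e : ((o k - T * u k) - (o' k - T' * u k)) * dt u v w =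
        (X3 o T u w - X3 o' T' u w) * (u k - v k) - (X3 o T u v - X3 o' T' u v) * (u k - w k) := by
      fin_cases k
      · simp only [Fin.zero_eta, Fin.isValue]
        rw [sub_mul, o0_eq o, o0_eq o']
        ring
      · simp only [Fin.mk_one, Fin.isValue]
        rw [sub_mul, o1_eq o, o1_eq o']
        ring
    refine key _ _ ?_ (by norm_num)
    rw [e]
    have g1 : |(X3 o T u w - X3 o' T' u w) * (u k - v k)| ≤ ρ * 2 := by
      rw [abs_mul]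
      exact mul_le_mul h2 (hdiff u v k (hu k) (hv k)) (abs_nonneg _) hρ
    have g2 : |(X3 o T u v - X3 o' T' u v) * (u k - w k)| ≤ ρ * 2 := by
      rw [abs_mul]
      exact mul_le_mul h3 (hdiff u w k (hu k) (hw k)) (abs_nonneg _) hρ
    have := abs_le.1 g1
    have := abs_le.1 g2
    rw [abs_le]
    constructor <;> linarith
  refine ⟨hT, fun k => ?_⟩
  have h4 := hq k
  have h5 : |(T - T') * u k| ≤ 3 * (ρ / d) := by
    rw [abs_mul]
    calc |T - T'| * |u k| ≤ (3 * (ρ / d)) * 1 := mul_le_mul hT (hu k) (abs_nonneg _) ((abs_nonneg _).trans hT)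
      _ = _ := mul_one _
  have e : o k - o' k = ((o k - T * u k) - (o' k - T' * u k)) + (T - T') * u k := by ring
  rw [e]
  calc _ ≤ |(o k - T * u k) - (o' k - T' * u k)| + |(T - T') * u k| := abs_add_le _ _
    _ ≤ _ := by linarith

/-- the functional `X3` depends only on the projection -/
theorem X3_lip {o o' : Fin 2 → ℝ} {T T' ρ : ℝ} {u v : Fin 2 → ℝ} (hu : ∀ k, |u k| ≤ 1) (hv : ∀ k, |v k| ≤ 1)
    (h : ∀ k, |(o k - T * v k) - (o' k - T' * v k)| ≤ ρ) : |X3 o T u v - X3 o' T' u v| ≤ 4 * ρ := by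
  have hdiff : ∀ k, |u k - v k| ≤ 2 := by
    intro k
    have := abs_le.1 (hu k)
    have := abs_le.1 (hv k)
    rw [abs_le]
    constructor <;> linarith
  have hρ : 0 ≤ ρ := (abs_nonneg _).trans (h 0)
  have e : X3 o T u v - X3 o' T' u v = ((o 0 - T * v 0) - (o' 0 - T' * v 0)) * (u 1 - v 1) -
      ((o 1 - T * v 1) - (o' 1 - T' * v 1)) * (u 0 - v 0) := by
    unfold X3
    ring
  have g1 : |((o 0 - T * v 0) - (o' 0 - T' * v 0)) * (u 1 - v 1)| ≤ ρ * 2 := by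
    rw [abs_mul]
    exact mul_le_mul (h 0) (hdiff 1) (abs_nonneg _) hρ
  have g2 : |((o 1 - T * v 1) - (o' 1 - T' * v 1)) * (u 0 - v 0)| ≤ ρ * 2 := by
    rw [abs_mul]
    exact mul_le_mul (h 1) (hdiff 0) (abs_nonneg _) hρ
  rw [e]
  have := abs_le.1 g1
  have := abs_le.1 g2
  rw [abs_le]
  constructor <;> linarith

theorem X3_lip' {o o' : Fin 2 → ℝ} {T T' ρ : ℝ} {u v : Fin 2 → ℝ} (hu : ∀ k, |u k| ≤ 1) (hv : ∀ k, |v k| ≤ 1)
    (h : ∀ k, |(o k - T * u k) - (o' k - T' * u k)| ≤ ρ) : |X3 o T u v - X3 o' T' u v| ≤ 4 * ρ := by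
  have e : ∀ (o : Fin 2 → ℝ) (T : ℝ), X3 o T u v = - X3 o T v u := by
    intro o T
    unfold X3
    ring
  have h1 := X3_lip (o := o) (o' := o') (T := T) (T' := T') hv hu h
  rw [e, e o', ← abs_neg]
  have e2 : -(-X3 o T v u - -X3 o' T' v u) = X3 o T v u - X3 o' T' v u := by ring
  rw [e2]
  exact h1

/-! ### strips -/

theorem fn_sub (θ : ℝ) (a b : Fin 2 → ℝ) : fn θ a - fn θ b = fn θ (fun k => a k - b k) := by
  unfold fn
  ring

theorem abs_fn_le (θ : ℝ) {a : Fin 2 → ℝ} {ρ : ℝ} (h : ∀ k, |a k| ≤ ρ) : |fn θ a| ≤ 2 * ρ := by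
  unfold fn
  have h0 : 0 ≤ ρ := (abs_nonneg _).trans (h 0)
  have g1 : |-Real.sin θ * a 0| ≤ ρ := by
    rw [abs_mul, abs_neg]
    calc |Real.sin θ| * |a 0| ≤ 1 * ρ := mul_le_mul (Real.abs_sin_le_one θ) (h 0) (abs_nonneg _) zero_le_one
      _ = ρ := one_mul ρ
  have g2 : |Real.cos θ * a 1| ≤ ρ := by
    rw [abs_mul]
    calc |Real.cos θ| * |a 1| ≤ 1 * ρ := mul_le_mul (Real.abs_cos_le_one θ) (h 1) (abs_nonneg _) zero_le_one
      _ = ρ := one_mul ρ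
  calc _ ≤ |-Real.sin θ * a 0| + |Real.cos θ * a 1| := abs_add_le _ _
    _ ≤ _ := by linarith

open Classical in
/-- covering by finitely many events -/
theorem sum_cover {Ω ι : Type*} [Fintype Ω] (f : Ω → ℝ) (hf : ∀ ω, 0 ≤ f ω) (A : Ω → Prop) (I : Finset ι) (p : ι → Ω → Prop)
    (h : ∀ ω, A ω → ∃ k ∈ I, p k ω) : ∑ ω with A ω, f ω ≤ ∑ k ∈ I, ∑ ω with p k ω, f ω := by
  have e : ∑ k ∈ I, ∑ ω with p k ω, f ω = ∑ ω, ∑ k ∈ I, if p k ω then f ω else 0 := by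
    rw [Finset.sum_comm]
    refine Finset.sum_congr rfl fun k _ => ?_
    rw [Finset.sum_filter]
  rw [e, Finset.sum_filter]
  refine Finset.sum_le_sum fun ω _ => ?_
  have h0 : ∀ k ∈ I, 0 ≤ if p k ω then f ω else 0 := fun k _ => by
    split_ifs
    · exact hf ω
    · exact le_rfl
  split_ifs with hA
  · obtain ⟨k, hk, hp⟩ := h ω hA
    calc f ω = if p k ω then f ω else 0 := by rw [if_pos hp]
      _ ≤ _ := Finset.single_le_sum h0 hk
  · exact Finset.sum_nonneg h0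

section strips

variable {K : ℕ} (F : Flg K)

/-- the slope of the direction of level `w` -/
noncomputable def sl (w : ℕ) (i : ℕ) (ω : F.S.Ω i) : Fin 2 → ℝ := F.s i w (F.Y w i ω)

theorem sl_le {i : ℕ} {ω : F.S.Ω i} (hω : 0 < (F.S.P i).w ω) {w : ℕ} (hw : w ≤ K) (k : Fin 2) : |sl F w i ω k| ≤ 1 :=
  (F.slp i).bd w _ k hw (Vale.Agent.P122.K931.cap_of F hω w hw)

theorem sl_one {i : ℕ} {ω : F.S.Ω i} (hω : 0 < (F.S.P i).w ω) {w : ℕ} (hw1 : 1 ≤ w) (hw : w ≤ K) (k : Fin 2) :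
    |sl F 1 i ω k - sl F w i ω k| ≤ F.C * K / 2 ^ F.n i := by
  have h := (Vale.Agent.P122.K931.chn_of F hω).slope (F.slp i) hw1 hw k
  have hC := Vale.Agent.P122.K931.C_nonneg F
  rw [one_mul] at h
  refine h.trans ?_
  gcongr
  have : (w:ℝ) ≤ K := by exact_mod_cast hw
  push_cast
  linarith

open Classical in
/-- the mass of a strip of directions of level `w` in a ball -/
theorem strip {c1 : ℝ} (hT : TG0 F c1) {w : ℕ} (hw1 : 1 ≤ w) (hw : w ≤ K) (s : ℕ) (ε : ℝ) (hε : 0 < ε) :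
    ∀ᶠ i in (uf : Filter ℕ), ∀ (θ r : ℝ) (s0 : ℤ × Z2),
      ∑ ω with bl F s i ω = s0 ∧ (0 < (F.S.P i).w ω ∧ |fn θ (sl F w i ω) - r| ≤ F.C / 2 ^ F.n i), (F.S.P i).w ω ≤
        (2 * K + 3) * (2:ℝ) ^ ((ε - c1 / K) * F.S.L i) * (F.S.P i).pr (bl F s i) s0 := by
  filter_upwards [hT.spr ε hε] with i hi θ r s0
  set q : ℝ := (2:ℝ) ^ ((ε - c1 / K) * F.S.L i) with hq
  have hC := Vale.Agent.P122.K931.C_nonneg F
  set ρ : ℝ := F.C / 2 ^ F.n i with hρ
  have hρ0 : 0 ≤ ρ := by positivity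
  -- one strip of level `1`
  have h1 : ∀ r' : ℝ, ∑ ω with bl F s i ω = s0 ∧ |fn θ (sl F 1 i ω) - r'| ≤ ρ, (F.S.P i).w ω ≤
      q * (F.S.P i).pr (bl F s i) s0 := by
    intro r'
    have h2 := sum_fib (F.S.P i) (F.x i) (bl F s i) (by
      intro ω ω' e
      unfold NS.bl
      have e' : F.N 0 i ω = F.N 0 i ω' := e
      rw [e']) (fun ω => |fn θ (sl F 1 i ω) - r'| ≤ ρ) (q := q) (by
      intro ω0 hω0
      have h2 := hi ω0 hω0 θ r'
      refine le_trans (le_of_eq ?_) h2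
      unfold Law.ex
      rw [Finset.sum_filter]
      refine Finset.sum_congr rfl fun ω _ => ?_
      beta_reduce
      by_cases hc : F.x i ω = F.x i ω0 ∧ |fn θ (F.s i 1 (F.Y 1 i ω)) - r'| ≤ ρ
      · rw [if_pos hc, if_pos (show F.x i ω = F.x i ω0 ∧ |fn θ (sl F 1 i ω) - r'| ≤ ρ from hc), mul_one]
      · rw [if_neg hc, if_neg (show ¬ (F.x i ω = F.x i ω0 ∧ |fn θ (sl F 1 i ω) - r'| ≤ ρ) from hc), mul_zero]) s0
    refine le_trans (le_of_eq ?_) h2
    exact Finset.sum_congr (by ext ω; simp) fun _ _ => rfl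
  -- cover by strips of level `1`
  have h2 := sum_cover (fun ω => (F.S.P i).w ω) (fun ω => (F.S.P i).nn ω)
    (fun ω => bl F s i ω = s0 ∧ (0 < (F.S.P i).w ω ∧ |fn θ (sl F w i ω) - r| ≤ ρ))
    (Finset.Icc (-((K:ℤ) + 1)) (K + 1)) (fun k ω => bl F s i ω = s0 ∧ |fn θ (sl F 1 i ω) - (r + 2 * k * ρ)| ≤ ρ) (by
    rintro ω ⟨hb, hω0, h2⟩
    have h3 : |fn θ (sl F 1 i ω) - fn θ (sl F w i ω)| ≤ 2 * (F.C * K / 2 ^ F.n i) := by
      rw [fn_sub]
      exact abs_fn_le θ fun k => sl_one F hω0 hw1 hw k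
    have e1 : F.C * K / 2 ^ F.n i = K * ρ := by rw [hρ]; ring
    rw [e1] at h3
    have h4 : |fn θ (sl F 1 i ω) - r| ≤ (2 * K + 1) * ρ := by
      have := abs_le.1 h2
      have := abs_le.1 h3
      rw [abs_le]
      constructor <;> linarith
    rcases hρ0.eq_or_lt with h0 | h0
    · refine ⟨0, by rw [Finset.mem_Icc]; constructor <;> omega, hb, ?_⟩
      rw [← h0] at h4 ⊢
      simpa using h4
    · set y : ℝ := (fn θ (sl F 1 i ω) - r) / (2 * ρ) with hy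
      have hy1 : |y| ≤ K + 1 / 2 := by
        rw [hy, abs_div, abs_of_pos (by linarith : (0:ℝ) < 2 * ρ), div_le_iff₀ (by linarith)]
        linarith
      have hy2 : fn θ (sl F 1 i ω) - r = 2 * y * ρ := by
        rw [hy]
        field_simp
      have h5 := Int.ceil_lt_add_one (y - 1 / 2)
      have h6 := Int.le_ceil (y - 1 / 2)
      have h7 := abs_le.1 hy1
      refine ⟨⌈y - 1 / 2⌉, ?_, hb, ?_⟩
      · rw [Finset.mem_Icc]
        constructor
        · have : (-(K:ℝ) - 2) < (⌈y - 1 / 2⌉ : ℤ) := by linarith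
          have h8 : -(K:ℤ) - 2 < ⌈y - 1 / 2⌉ := by exact_mod_cast this
          omega
        · have : ((⌈y - 1 / 2⌉ : ℤ) : ℝ) < K + 2 := by linarith
          have h8 : ⌈y - 1 / 2⌉ < (K:ℤ) + 2 := by exact_mod_cast this
          omega
      · have e2 : fn θ (sl F 1 i ω) - (r + 2 * (⌈y - 1 / 2⌉ : ℤ) * ρ) = 2 * (y - (⌈y - 1 / 2⌉ : ℤ)) * ρ := by
          linarith
        rw [e2, abs_mul, abs_of_pos h0]
        have h8 : |2 * (y - (⌈y - 1 / 2⌉ : ℤ))| ≤ 1 := by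
          rw [abs_le]
          constructor <;> linarith
        calc _ ≤ 1 * ρ := mul_le_mul_of_nonneg_right h8 h0.le
          _ = ρ := one_mul ρ)
  have h3 : ∑ k ∈ Finset.Icc (-((K:ℤ) + 1)) (K + 1), ∑ ω with bl F s i ω = s0 ∧
      |fn θ (sl F 1 i ω) - (r + 2 * k * ρ)| ≤ ρ, (F.S.P i).w ω ≤
      ∑ _k ∈ Finset.Icc (-((K:ℤ) + 1)) (K + 1), q * (F.S.P i).pr (bl F s i) s0 :=
    Finset.sum_le_sum fun k _ => h1 (r + 2 * k * ρ)
  have h4 : ∑ _k ∈ Finset.Icc (-((K:ℤ) + 1)) (K + 1), q * (F.S.P i).pr (bl F s i) s0 =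
      (2 * K + 3) * q * (F.S.P i).pr (bl F s i) s0 := by
    rw [Finset.sum_const, Int.card_Icc, nsmul_eq_mul]
    have : ((K:ℤ) + 1 + 1 - -((K:ℤ) + 1)).toNat = 2 * K + 3 := by omega
    rw [this]
    push_cast
    ring
  rw [← h4]
  refine le_trans ?_ h3
  refine le_trans ?_ (le_trans h2 ?_)
  · exact le_of_eq (Finset.sum_congr (by ext ω; simp) fun _ _ => rfl)
  · refine Finset.sum_le_sum fun k _ => le_of_eq ?_
    exact Finset.sum_congr (by ext ω; simp) fun _ _ => rfl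

end strips

end Vale.Agent.P076.H732
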