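import Vale.Agent.P076.H732.LWa

/-!
# P076 / BG / LW1, second part (helper732)

Three copies of the direction given the small ball are transversal up to a rare event; the three functionals determine the
small ball up to `O(n)` bits.
-/

set_option autoImplicit false

namespace Vale.Agent.P076.H732

open Filter Topology Finset Vale.Agent.P127 Vale.Agent.P127.Stk Vale.Agent.P127.U Vale.Agent.P127.U.Sys
  Vale.Agent.P122.C2 Vale.Agent.P122.E Vale.Agent.P076.BG

section gen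

variable {Ω : Type} [Fintype Ω]

theorem prE_mono' (P : Law Ω) {A B : Ω → Prop} (h : ∀ ω, 0 < P.w ω → A ω → B ω) : prE P A ≤ prE P B := by
  classical
  unfold prE
  rw [Finset.sum_filter, Finset.sum_filter]
  refine Finset.sum_le_sum fun ω _ => ?_
  rcases (P.nn ω).eq_or_lt with h0 | h0
  · rw [← h0]
    split_ifs <;> simp
  · by_cases hA : A ω
    · rw [if_pos hA, if_pos (h ω h0 hA)]
    · rw [if_neg hA]
      split_ifs
      · exact h0.le
      · exact le_rfl

theorem prE_or (P : Law Ω) (A B : Ω → Prop) : prE P (fun ω => A ω ∨ B ω) ≤ prE P A + prE P B := by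
  classical
  unfold prE
  rw [Finset.sum_filter, Finset.sum_filter, Finset.sum_filter, ← Finset.sum_add_distrib]
  refine Finset.sum_le_sum fun ω _ => ?_
  have := P.nn ω
  by_cases hA : A ω
  · rw [if_pos (Or.inl hA), if_pos hA]
    split_ifs <;> linarith
  · by_cases hB : B ω
    · rw [if_pos (Or.inr hB), if_neg hA, if_pos hB, zero_add]
    · rw [if_neg (by tauto), if_neg hA, if_neg hB, zero_add]

end gen

section three

variable {K : ℕ} (F : Flg K)

theorem n_pos : ∀ᶠ i in (uf : Filter ℕ), 1 ≤ F.n i := by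
  filter_upwards [F.S.L_pos] with i hi
  rw [F.L_eq i] at hi
  exact Nat.pos_of_mul_pos_left hi |>.trans_le' le_rfl

theorem C_quarter (hK : 1 ≤ K) {i : ℕ} (hn : 1 ≤ F.n i) : 1 / 4 ≤ F.C := by
  have hC := Vale.Agent.P122.K931.C_nonneg F
  have h2 : (2:ℤ) ≤ 2 ^ (1 * F.n i) := by
    calc (2:ℤ) = 2 ^ 1 := by norm_num
      _ ≤ 2 ^ (1 * F.n i) := pow_le_pow_right₀ (by norm_num) (by omega)
  have c0 : Cap (F.n i) 1 (0 : Z2) := by
    intro k
    constructor
    · simp
    · show (0:ℤ) < 2 ^ (1 * F.n i)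
      positivity
  have c1 : Cap (F.n i) 1 (fun _ => 1 : Z2) := by
    intro k
    constructor
    · norm_num
    · show (1:ℤ) < 2 ^ (1 * F.n i)
      omega
  have h3 := (F.slp i).colip 1 0 (fun _ => 1) hK c0 c1
  have h4 := fun k => (F.slp i).lip 1 0 (fun _ => 1) k hK c0 c1
  have hp : (0:ℝ) < 2 ^ (1 * F.n i) := by positivity
  simp only [Pi.zero_apply, Int.cast_zero, Int.cast_one, zero_sub, abs_neg, abs_one] at h3 h4
  have h5 := h4 0
  have h6 := h4 1
  rw [le_div_iff₀ hp] at h5 h6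
  by_contra hcon
  push Not at hcon
  nlinarith

/-- nearly collinear -/
def NT (w : ℕ) (i : ℕ) (ω : Fin 3 → F.S.Ω i) : Prop :=
  |dt (sl F w i (ω 0)) (sl F w i (ω 1)) (sl F w i (ω 2))| < (F.C / 2 ^ F.n i) ^ 2

open Classical in
/-- three copies of the direction given the ball are transversal up to a rare event -/
theorem rare_NT (hK : 1 ≤ K) {c1 : ℝ} (hc1 : 0 < c1) (hT : NS.TG0 F c1) {w : ℕ} (hw1 : 1 ≤ w) (hw : w ≤ K) (s : ℕ) :
    Rare (cpS F.S (NS.bl F s) 2) (fun i ω => NT F w i ω) := by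
  have hK0 : (0:ℝ) < K := by exact_mod_cast hK
  refine ⟨c1 / (4 * K), by positivity, ?_⟩
  have hlim : ∀ᶠ i in (uf : Filter ℕ), 2 * ((2 * K + 3) * (2:ℝ) ^ ((c1 / (2 * K) - c1 / K) * F.S.L i)) ≤
      (2:ℝ) ^ (-(c1 / (4 * K) * F.S.L i)) := by
    have hL : Tendsto (fun i => (F.S.L i : ℝ)) (uf : Filter ℕ) atTop :=
      tendsto_natCast_atTop_atTop.comp F.S.Ltop
    have h1 : Tendsto (fun i => c1 / (4 * K) * (F.S.L i : ℝ)) (uf : Filter ℕ) atTop :=
      hL.const_mul_atTop (by positivity)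
    filter_upwards [h1.eventually_ge_atTop (2 * (2 * K + 3))] with i hi
    have e1 : (c1 / (2 * K) - c1 / K) * (F.S.L i : ℝ) = -(c1 / (4 * K) * F.S.L i) + -(c1 / (4 * K) * F.S.L i) := by
      field_simp
      ring
    rw [e1, Real.rpow_add (by norm_num)]
    set y : ℝ := c1 / (4 * K) * F.S.L i with hy
    have h2 : 2 * (2 * K + 3) * (2:ℝ) ^ (-y) ≤ 1 := by
      rw [Real.rpow_neg (by norm_num)]
      have h3 : y ≤ (2:ℝ) ^ y := by
        have h4 := Real.add_one_le_exp (y * Real.log 2)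
        have h5 : (2:ℝ) ^ y = Real.exp (Real.log 2 * y) := by rw [Real.rpow_def_of_pos (by norm_num)]
        by_cases hy1 : y ≤ 1
        · exact hy1.trans (Real.one_le_rpow (by norm_num) (by linarith [show (0:ℝ) ≤ 2 * (2 * K + 3) by positivity]))
        · push Not at hy1
          have h6 : y < (2:ℝ) ^ y := by
            have h7 := one_add_mul_self_le_rpow_one_add (s := 1) (by norm_num) hy1.le
            have h8 : (1:ℝ) + 1 = 2 := by norm_num
            rw [h8] at h7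
            linarith
          exact h6.le
      have hp : (0:ℝ) < (2:ℝ) ^ y := by positivity
      rw [← div_eq_mul_inv, div_le_one hp]
      linarith
    have h3 : (0:ℝ) ≤ (2:ℝ) ^ (-y) := by positivity
    nlinarith
  filter_upwards [hlim, strip F hT hw1 hw s (c1 / (2 * K)) (by positivity), n_pos F] with i h1 h2 hn
  have hC := C_quarter F hK hn
  set ρ : ℝ := F.C / 2 ^ F.n i with hρ
  have hρ0 : 0 < ρ := by positivity
  set q : ℝ := (2 * K + 3) * (2:ℝ) ^ ((c1 / (2 * K) - c1 / K) * F.S.L i) with hq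
  -- the direction of two slopes
  choose dr hdr using exists_dir
  let E1 : (Fin 3 → F.S.Ω i) → Prop := fun ω => 0 < (F.S.P i).w (ω 1) ∧
    |fn 0 (sl F w i (ω 1)) - fn 0 (sl F w i (ω 0))| ≤ ρ
  let θ : (Fin 3 → F.S.Ω i) → ℝ := fun ω => dr (fun k => sl F w i (ω 0) k - sl F w i (ω 1) k)
  let E2 : (Fin 3 → F.S.Ω i) → Prop := fun ω => 0 < (F.S.P i).w (ω 2) ∧
    |fn (θ ω) (sl F w i (ω 2)) - fn (θ ω) (sl F w i (ω 0))| ≤ ρ
  have hQ := cpL_w F.S (NS.bl F s) 2 i
  have g1 : prE (cpL F.S (NS.bl F s) 2 i) E1 ≤ q := by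
    refine cw_prE hQ 1 E1 fun v s0 hv hvs => ?_
    refine le_trans (le_of_eq ?_) (h2 0 (fn 0 (sl F w i (v 0))) s0)
    refine Finset.sum_congr ?_ fun _ _ => rfl
    ext ω
    simp only [Finset.mem_filter, Finset.mem_univ, true_and]
    have e0 : (Fin.insertNth (α := fun _ => F.S.Ω i) 1 ω v) 0 = v 0 := rfl
    have e1 : (Fin.insertNth (α := fun _ => F.S.Ω i) 1 ω v) 1 = ω := rfl
    show _ ∧ (0 < (F.S.P i).w ((Fin.insertNth (α := fun _ => F.S.Ω i) 1 ω v) 1) ∧
      |fn 0 (sl F w i ((Fin.insertNth (α := fun _ => F.S.Ω i) 1 ω v) 1)) -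
        fn 0 (sl F w i ((Fin.insertNth (α := fun _ => F.S.Ω i) 1 ω v) 0))| ≤ ρ) ↔ _
    rw [e0, e1]
  have g2 : prE (cpL F.S (NS.bl F s) 2 i) E2 ≤ q := by
    refine cw_prE hQ 2 E2 fun v s0 hv hvs => ?_
    refine le_trans (le_of_eq ?_) (h2 (dr (fun k => sl F w i (v 0) k - sl F w i (v 1) k))
      (fn (dr (fun k => sl F w i (v 0) k - sl F w i (v 1) k)) (sl F w i (v 0))) s0)
    refine Finset.sum_congr ?_ fun _ _ => rfl
    ext ω
    simp only [Finset.mem_filter, Finset.mem_univ, true_and]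
    have e0 : (Fin.insertNth (α := fun _ => F.S.Ω i) 2 ω v) 0 = v 0 := rfl
    have e1 : (Fin.insertNth (α := fun _ => F.S.Ω i) 2 ω v) 1 = v 1 := rfl
    have e2 : (Fin.insertNth (α := fun _ => F.S.Ω i) 2 ω v) 2 = ω := rfl
    show _ ∧ (0 < (F.S.P i).w ((Fin.insertNth (α := fun _ => F.S.Ω i) 2 ω v) 2) ∧
      |fn (dr fun k => sl F w i ((Fin.insertNth (α := fun _ => F.S.Ω i) 2 ω v) 0) k -
          sl F w i ((Fin.insertNth (α := fun _ => F.S.Ω i) 2 ω v) 1) k)
          (sl F w i ((Fin.insertNth (α := fun _ => F.S.Ω i) 2 ω v) 2)) -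
        fn (dr fun k => sl F w i ((Fin.insertNth (α := fun _ => F.S.Ω i) 2 ω v) 0) k -
          sl F w i ((Fin.insertNth (α := fun _ => F.S.Ω i) 2 ω v) 1) k)
          (sl F w i ((Fin.insertNth (α := fun _ => F.S.Ω i) 2 ω v) 0))| ≤ ρ) ↔ _
    rw [e0, e1, e2]
  rw [Vale.Agent.P122.H540.prb_eq]
  refine le_trans (le_trans (prE_mono' _ (B := fun ω => E1 ω ∨ E2 ω) ?_) (prE_or _ E1 E2)) ?_
  · intro ω hω hN
    have hsupp := (cp_supp F.S (NS.bl F s) 2 hω).2
    by_contra hcon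
    push Not at hcon
    obtain ⟨c1', c2'⟩ := hcon
    have d1 : ρ < |fn 0 (sl F w i (ω 1)) - fn 0 (sl F w i (ω 0))| := by
      by_contra h
      exact c1' ⟨hsupp 1, not_lt.1 h⟩
    have d2 : ρ < |fn (θ ω) (sl F w i (ω 2)) - fn (θ ω) (sl F w i (ω 0))| := by
      by_contra h
      exact c2' ⟨hsupp 2, not_lt.1 h⟩
    set a : Fin 2 → ℝ := fun k => sl F w i (ω 0) k - sl F w i (ω 1) k with ha
    set b : Fin 2 → ℝ := fun k => sl F w i (ω 0) k - sl F w i (ω 2) k with hb
    have h3 := hdr a b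
    have h4 : dt (sl F w i (ω 0)) (sl F w i (ω 1)) (sl F w i (ω 2)) = a 0 * b 1 - a 1 * b 0 := rfl
    have h5 : ρ < Real.sqrt (a 0 ^ 2 + a 1 ^ 2) := by
      have e1 : |fn 0 (sl F w i (ω 1)) - fn 0 (sl F w i (ω 0))| = |a 1| := by
        unfold fn
        rw [Real.sin_zero, Real.cos_zero, ← abs_neg]
        congr 1
        rw [ha]
        ring
      rw [e1] at d1
      refine d1.trans_le (Real.abs_le_sqrt ?_)
      nlinarith [sq_nonneg (a 0)]
    have h6 : ρ < |fn (dr a) b| := by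
      have e1 : |fn (θ ω) (sl F w i (ω 2)) - fn (θ ω) (sl F w i (ω 0))| = |fn (dr a) b| := by
        rw [fn_sub, ← abs_neg]
        congr 1
        show -(fn (dr a) _) = _
        unfold fn
        rw [hb]
        ring
      rwa [e1] at d2
    have h7 : (F.C / 2 ^ F.n i) ^ 2 < |dt (sl F w i (ω 0)) (sl F w i (ω 1)) (sl F w i (ω 2))| := by
      rw [h4, ← h3, abs_mul, abs_of_nonneg (Real.sqrt_nonneg _), sq]
      exact mul_lt_mul h5 h6.le hρ0 (Real.sqrt_nonneg _)
    exact absurd hN (not_lt.2 h7.le)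
  · refine (add_le_add g1 g2).trans ?_
    show q + q ≤ (2:ℝ) ^ (-(c1 / (4 * K) * F.S.L i))
    linarith

end three

end Vale.Agent.P076.H732
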