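import Vale.Agent.P122.H518.ChainS

/-!
# P076 / BG / LW1, third part (helper732): the entropy inequality

Abstract Loomis-Whitney inequality for a variable `p` in a ball `B`, three copies `θ₀, θ₁, θ₂` of a direction which are
conditionally independent given `p`, the projections `π j` along them and three coordinates.
-/

set_option autoImplicit false

namespace Vale.Agent.P076.H732

open Filter Topology Vale.Agent.P127 Vale.Agent.P127.Stk Vale.Agent.P127.U Vale.Agent.P127.U.Sys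
open Vale.Agent.P122.H518

variable {S : Sys} {α β γ δ ε ζ : Type*}

/-- Shearer's inequality for three variables -/
theorem shearer {X : S.RV α} {Y : S.RV β} {W : S.RV γ} {C : S.RV δ} (tX : Tame X) (tY : Tame Y) (tW : Tame W) :
    2 * S.hc (Sys.pr X (Sys.pr Y W)) C ≤ S.hc (Sys.pr X Y) C + S.hc (Sys.pr X W) C + S.hc (Sys.pr Y W) C := by
  have h1 := hc_pair tX (tY.pr tW) C
  have h2 := hc_pair tY tW (Sys.pr X C)
  have h3 := hc_pair tX tY C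
  have h4 := hc_pair tX tW C
  have h5 := hc_pair tY tW C
  -- `hc(W | Y, X, C) ≤ hc(W | X, C)`, `hc(Y | X, C) ≤ hc(Y | C)`, `hc(W | Y, X, C) ≤ hc(W | Y, C)`
  have h6 : S.hc W (Sys.pr Y (Sys.pr X C)) ≤ S.hc W (Sys.pr X C) := hc_le_cond tW Y (Sys.pr X C)
  have h7 : S.hc Y (Sys.pr X C) ≤ S.hc Y C := hc_le_cond tY X C
  have h8 : S.hc W (Sys.pr Y (Sys.pr X C)) ≤ S.hc W (Sys.pr Y C) :=
    hc_mono_right tW (fpr (ffst _ _) (ftr (fsnd _ _) (fsnd _ _)))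
  linarith

/-- three variables which are zero entropy functions -/
theorem hc_pr_zero {X : S.RV α} {Y : S.RV β} {C : S.RV δ} (tX : Tame X) (tY : Tame Y) (h1 : S.hc X C = 0)
    (h2 : S.hc Y C = 0) : S.hc (Sys.pr X Y) C = 0 := by
  rw [hc_pair tX tY C, h1, zero_add]
  refine le_antisymm ?_ (hc_nonneg tY _)
  rw [← h2]
  exact hc_le_cond tY X C

theorem lw_sys {p : S.RV α} {B : S.RV β} {θ₀ θ₁ θ₂ : S.RV γ} {π₀ π₁ π₂ : S.RV δ} {x y z : S.RV ℤ}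
    (tp : Tame p) (tθ₀ : Tame θ₀) (tθ₁ : Tame θ₁) (tθ₂ : Tame θ₂) (tπ₀ : Tame π₀) (tπ₁ : Tame π₁)
    (tπ₂ : Tame π₂) (tx : Tame x) (ty : Tame y) (tz : Tame z) (hB : Sys.Fn B p) {l dB dp A : ℝ}
    (l0 : S.hc p (Sys.pr B (Sys.pr θ₀ π₀)) = l) (l1 : S.hc p (Sys.pr B (Sys.pr θ₁ π₁)) = l)
    (l2 : S.hc p (Sys.pr B (Sys.pr θ₂ π₂)) = l)
    (b0 : S.hc θ₀ B = dB) (b1 : S.hc θ₁ B = dB) (b2 : S.hc θ₂ B = dB)
    (p0 : S.hc θ₀ p = dp) (p1 : S.hc θ₁ (Sys.pr θ₀ p) = dp) (p2 : S.hc θ₂ (Sys.pr (Sys.pr θ₀ θ₁) p) = dp)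
    (q1 : S.hc θ₁ p = dp) (q2 : S.hc θ₂ p = dp)
    (z0 : S.hc π₀ (Sys.pr p θ₀) = 0) (z1 : S.hc π₁ (Sys.pr p θ₁) = 0) (z2 : S.hc π₂ (Sys.pr p θ₂) = 0)
    (x0 : S.hc x (Sys.pr π₀ (Sys.pr θ₀ (Sys.pr θ₁ θ₂))) = 0) (y0 : S.hc y (Sys.pr π₀ (Sys.pr θ₀ (Sys.pr θ₁ θ₂))) = 0)
    (x1 : S.hc x (Sys.pr π₁ (Sys.pr θ₀ (Sys.pr θ₁ θ₂))) = 0) (w1 : S.hc z (Sys.pr π₁ (Sys.pr θ₀ (Sys.pr θ₁ θ₂))) = 0)
    (y2 : S.hc y (Sys.pr π₂ (Sys.pr θ₀ (Sys.pr θ₁ θ₂))) = 0) (w2 : S.hc z (Sys.pr π₂ (Sys.pr θ₀ (Sys.pr θ₁ θ₂))) = 0)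
    (hA : S.hc p (Sys.pr (Sys.pr x (Sys.pr y z)) (Sys.pr θ₀ (Sys.pr θ₁ θ₂))) ≤ A) :
    3 * l ≤ S.hc p B + 3 * (dB - dp) + 2 * A := by
  set Z := Sys.pr θ₀ (Sys.pr θ₁ θ₂) with hZ
  have tZ : Tame Z := tθ₀.pr (tθ₁.pr tθ₂)
  -- a direction
  have one : ∀ (θ : S.RV γ) (π : S.RV δ), Tame θ → Tame π → S.hc p (Sys.pr B (Sys.pr θ π)) = l → S.hc θ B = dB →
      S.hc θ p = dp → S.hc π (Sys.pr p θ) = 0 → Sys.Fn θ Z → l ≤ S.hc p B - (dB - dp) - S.hc π (Sys.pr Z B) := by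
    intro θ π tθ tπ h1 h2 h3 h4 h5
    have e1 := mi_comm (X := p) (Y := θ) tp tθ B
    unfold Sys.mi at e1
    have e2 : S.hc θ (Sys.pr p B) = S.hc θ p :=
      hc_congr (ffst _ _) (ffst _ _) (fpr (Eventually.of_forall fun _ _ _ _ _ e => e) hB) (ffst _ _)
    have e3 : S.hc (Sys.pr π p) (Sys.pr θ B) = S.hc π (Sys.pr θ B) + S.hc p (Sys.pr π (Sys.pr θ B)) :=
      hc_pair tπ tp (Sys.pr θ B)
    have e4 : S.hc (Sys.pr p π) (Sys.pr θ B) = S.hc p (Sys.pr θ B) + S.hc π (Sys.pr p (Sys.pr θ B)) :=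
      hc_pair tp tπ (Sys.pr θ B)
    have e5 : S.hc (Sys.pr π p) (Sys.pr θ B) = S.hc (Sys.pr p π) (Sys.pr θ B) :=
      hc_congr (ftr (fpr (fsnd _ _) (ffst _ _)) (ffst _ _)) (ftr (fpr (fsnd _ _) (ffst _ _)) (ffst _ _))
        (Eventually.of_forall fun _ _ _ _ _ e => e) (Eventually.of_forall fun _ _ _ _ _ e => e)
    have e6 : S.hc π (Sys.pr p (Sys.pr θ B)) = 0 := by
      refine le_antisymm ?_ (hc_nonneg tπ _)
      rw [← h4]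
      exact hc_mono_right tπ (fpr (ffst _ _) (ftr (ffst _ _) (fsnd _ _)))
    have e7 : S.hc p (Sys.pr π (Sys.pr θ B)) = l := by
      rw [← h1]
      exact hc_congr (ffst _ _) (ffst _ _)
        (fpr (ftr (fsnd _ _) (fsnd _ _)) (fpr (ftr (ffst _ _) (fsnd _ _)) (ffst _ _)))
        (fpr (ftr (fsnd _ _) (fsnd _ _)) (fpr (ftr (ffst _ _) (fsnd _ _)) (ffst _ _)))
    have e8 : S.hc π (Sys.pr Z B) ≤ S.hc π (Sys.pr θ B) := hc_mono_right tπ (fpr (ftr h5 (ffst _ _)) (fsnd _ _))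
    rw [e2] at e1
    linarith
  have f0 : Sys.Fn θ₀ Z := ffst _ _
  have f1 : Sys.Fn θ₁ Z := ftr (ffst _ _) (fsnd _ _)
  have f2 : Sys.Fn θ₂ Z := ftr (fsnd _ _) (fsnd _ _)
  have g0 := one θ₀ π₀ tθ₀ tπ₀ l0 b0 p0 z0 f0
  have g1 := one θ₁ π₁ tθ₁ tπ₁ l1 b1 q1 z1 f1
  have g2 := one θ₂ π₂ tθ₂ tπ₂ l2 b2 q2 z2 f2
  -- the directions together
  have hZB : S.hc Z B ≤ 3 * dB := by
    have h1 := hc_pair tθ₀ (tθ₁.pr tθ₂) B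
    have h2 := hc_pair tθ₁ tθ₂ (Sys.pr θ₀ B)
    have h3 : S.hc θ₁ (Sys.pr θ₀ B) ≤ S.hc θ₁ B := hc_le_cond tθ₁ θ₀ B
    have h4 : S.hc θ₂ (Sys.pr θ₁ (Sys.pr θ₀ B)) ≤ S.hc θ₂ B :=
      hc_mono_right tθ₂ (ftr (fsnd _ _) (fsnd _ _))
    rw [hZ]
    linarith
  have hZp : S.hc Z (Sys.pr p B) = 3 * dp := by
    have h0 : S.hc Z (Sys.pr p B) = S.hc Z p :=
      hc_congr (ffst _ _) (ffst _ _) (fpr (Eventually.of_forall fun _ _ _ _ _ e => e) hB) (ffst _ _)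
    have h1 := hc_pair tθ₀ (tθ₁.pr tθ₂) p
    have h2 := hc_pair tθ₁ tθ₂ (Sys.pr θ₀ p)
    have h3 : S.hc θ₂ (Sys.pr θ₁ (Sys.pr θ₀ p)) = S.hc θ₂ (Sys.pr (Sys.pr θ₀ θ₁) p) :=
      hc_congr (ffst _ _) (ffst _ _) (fpr (ftr (fsnd _ _) (ffst _ _)) (fpr (ftr (ffst _ _) (ffst _ _)) (fsnd _ _)))
        (fpr (fpr (ftr (ffst _ _) (fsnd _ _)) (ffst _ _)) (ftr (fsnd _ _) (fsnd _ _)))
    rw [h0, hZ]
    linarith
  have hpZ : S.hc p B - 3 * (dB - dp) ≤ S.hc p (Sys.pr Z B) := by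
    have e1 := mi_comm (X := p) (Y := Z) tp tZ B
    unfold Sys.mi at e1
    linarith
  -- the coordinates
  have tX : Tame (Sys.pr x (Sys.pr y z)) := tx.pr (ty.pr tz)
  have h1 : S.hc p (Sys.pr Z B) ≤ S.hc (Sys.pr x (Sys.pr y z)) (Sys.pr Z B) + A := by
    have h2 := hc_le_add tp tX (Sys.pr Z B)
    have h3 : S.hc p (Sys.pr (Sys.pr x (Sys.pr y z)) (Sys.pr Z B)) ≤ S.hc p (Sys.pr (Sys.pr x (Sys.pr y z)) Z) :=
      hc_mono_right tp (fpr (ffst _ _) (ftr (ffst _ _) (fsnd _ _)))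
    linarith
  have h2 := shearer (C := Sys.pr Z B) tx ty tz
  have two : ∀ (u v : S.RV ℤ) (π : S.RV δ), Tame u → Tame v → Tame π → S.hc u (Sys.pr π Z) = 0 →
      S.hc v (Sys.pr π Z) = 0 → S.hc (Sys.pr u v) (Sys.pr Z B) ≤ S.hc π (Sys.pr Z B) := by
    intro u v π tu tv tπ hu hv
    refine hc_le_of_zero (tu.pr tv) tπ ?_
    refine hc_pr_zero tu tv ?_ ?_
    · refine le_antisymm ?_ (hc_nonneg tu _)
      rw [← hu]
      exact hc_mono_right tu (fpr (ffst _ _) (ftr (ffst _ _) (fsnd _ _)))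
    · refine le_antisymm ?_ (hc_nonneg tv _)
      rw [← hv]
      exact hc_mono_right tv (fpr (ffst _ _) (ftr (ffst _ _) (fsnd _ _)))
  have k0 := two x y π₀ tx ty tπ₀ x0 y0
  have k1 := two x z π₁ tx tz tπ₁ x1 w1
  have k2 := two y z π₂ ty tz tπ₂ y2 w2
  linarith

end Vale.Agent.P076.H732
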