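import Vale.Agent.P076.NS.Geo
import Vale.Agent.P076.H732.LWb
import Vale.Agent.P076.H732.LWc

/-!
# P076 / BG / LW1 (helper732): Loomis-Whitney in one window
-/

set_option autoImplicit false

namespace Vale.Agent.P076.H732

open Filter Topology Finset Vale.Agent.P127 Vale.Agent.P127.Stk Vale.Agent.P127.U Vale.Agent.P127.U.Sys
  Vale.Agent.P122.C2 Vale.Agent.P122.E Vale.Agent.P122.H518

/-- an integer known up to a constant -/
theorem zero_int {S : Sys} {γ : Type*} (C : ℕ) (X : S.RV ℤ) (Y : S.RV γ)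
    (h : ∀ᶠ i in (uf : Filter ℕ), ∀ ω ω', 0 < (S.P i).w ω → 0 < (S.P i).w ω' → Y i ω' = Y i ω →
      |X i ω' - X i ω| ≤ C) : S.hc X Y = 0 := by
  have h1 := Vale.Agent.P122.K931.zero_vec (S := S) C (fun i ω _ => X i ω) Y (by
    filter_upwards [h] with i hi ω ω' hω hω' e k
    exact hi ω ω' hω hω' e)
  rw [← h1]
  refine hc_congr ?_ ?_ (Eventually.of_forall fun _ _ _ _ _ e => e) (Eventually.of_forall fun _ _ _ _ _ e => e)
  · refine Eventually.of_forall fun i ω ω' _ _ e => ?_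
    simp only [pr_apply, Prod.mk.injEq] at e
    exact congrFun e.1 0
  · refine Eventually.of_forall fun i ω ω' _ _ e => ?_
    simp only [pr_apply, Prod.mk.injEq] at e
    funext k
    exact e.1

theorem floor_eq_close {x y : ℝ} (h : ⌊x⌋ = ⌊y⌋) : |x - y| ≤ 1 := by
  have h2 := Int.floor_le x
  have h3 := Int.lt_floor_add_one x
  have h4 := Int.floor_le y
  have h5 := Int.lt_floor_add_one y
  rw [h] at h2 h3
  rw [abs_le]
  constructor <;> linarith

section lw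

variable {K : ℕ} (F : Flg K) (s w : ℕ)

/-- three copies given the small ball -/
noncomputable abbrev C3 : Sys := cpS F.S (NS.bl F s) 2

/-- the copy `j` -/
noncomputable abbrev e3 (j : Fin 3) : Ext (C3 F s) F.S := cpE F.S (NS.bl F s) 2 j

/-- position of the starting cell -/
noncomputable def oo (i : ℕ) (ω : F.S.Ω i) : Fin 2 → ℝ := fun k => ((F.N 0 i ω).o k : ℝ)

/-- time of the starting cell -/
noncomputable def tt (i : ℕ) (ω : F.S.Ω i) : ℝ := ((F.N 0 i ω).T : ℝ)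

/-- the coordinates -/
noncomputable def xx (a b : Fin 3) : (C3 F s).RV ℤ := fun i ω =>
  ⌊X3 (oo F i (ω 0)) (tt F i (ω 0)) (sl F w i (ω a)) (sl F w i (ω b)) / 2 ^ (s * F.n i)⌋

/-- the three directions -/
noncomputable abbrev ZZ : (C3 F s).RV (Z2 × Z2 × Z2) :=
  Sys.pr ((e3 F s 0).pull (F.Y w)) (Sys.pr ((e3 F s 1).pull (F.Y w)) ((e3 F s 2).pull (F.Y w)))

variable {F s w}

theorem ZZ_eq {i : ℕ} {ω ω' : Fin 3 → F.S.Ω i} (h : ZZ F s w i ω' = ZZ F s w i ω) (j : Fin 3) :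
    sl F w i (ω' j) = sl F w i (ω j) := by
  have h0 : F.Y w i (ω' 0) = F.Y w i (ω 0) := congrArg Prod.fst h
  have h1 : F.Y w i (ω' 1) = F.Y w i (ω 1) := congrArg (fun q => q.2.1) h
  have h2 : F.Y w i (ω' 2) = F.Y w i (ω 2) := congrArg (fun q => q.2.2) h
  have key : F.Y w i (ω' j) = F.Y w i (ω j) := by
    fin_cases j
    · exact h0
    · exact h1
    · exact h2
  unfold sl
  rw [key]

/-- cells in the same ball are close -/
theorem bl_close {i : ℕ} {ω ω' : F.S.Ω i} (h : NS.bl F s i ω = NS.bl F s i ω') :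
    |tt F i ω - tt F i ω'| ≤ 2 ^ (s * F.n i) ∧ ∀ k, |oo F i ω k - oo F i ω' k| ≤ 2 ^ (s * F.n i) := by
  have h1 : (F.N 0 i ω).T / 2 ^ (s * F.n i) = (F.N 0 i ω').T / 2 ^ (s * F.n i) := congrArg Prod.fst h
  have h2 : ∀ k, (F.N 0 i ω).o k / 2 ^ (s * F.n i) = (F.N 0 i ω').o k / 2 ^ (s * F.n i) :=
    fun k => congrFun (congrArg Prod.snd h) k
  constructor
  · have := Vale.Agent.P122.K931.close_of_ediv (a := (F.N 0 i ω).T) (b := (F.N 0 i ω').T) (N := 2 ^ (s * F.n i))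
      (by positivity) (by push_cast; exact h1)
    push_cast at this
    exact this
  · intro k
    have := Vale.Agent.P122.K931.close_of_ediv (a := (F.N 0 i ω).o k) (b := (F.N 0 i ω').o k) (N := 2 ^ (s * F.n i))
      (by positivity) (by push_cast; exact h2 k)
    push_cast at this
    exact this

/-- the projection of copy `c` determines that of copy `0` -/
theorem proj_close (hw : w ≤ K) {i : ℕ} {ω ω' : Fin 3 → F.S.Ω i} (hω : 0 < ((C3 F s).P i).w ω)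
    (hω' : 0 < ((C3 F s).P i).w ω') {c : Fin 3}
    (h : Sys.pr ((e3 F s c).pull (NS.pj F s w)) (ZZ F s w) i ω' = Sys.pr ((e3 F s c).pull (NS.pj F s w)) (ZZ F s w) i ω)
    (k : Fin 2) :
    |(oo F i (ω' 0) k - tt F i (ω' 0) * sl F w i (ω c) k) - (oo F i (ω 0) k - tt F i (ω 0) * sl F w i (ω c) k)| ≤
      5 * 2 ^ (s * F.n i) := by
  have h' : (e3 F s c).pull (NS.pj F s w) i ω' = (e3 F s c).pull (NS.pj F s w) i ω ∧ ZZ F s w i ω' = ZZ F s w i ω :=
    ⟨congrArg Prod.fst h, congrArg Prod.snd h⟩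
  obtain ⟨h1, h2⟩ := h'
  have hsl := ZZ_eq h2 c
  have s1 := cp_supp F.S (NS.bl F s) 2 hω
  have s2 := cp_supp F.S (NS.bl F s) 2 hω'
  have b1 := bl_close (s1.1 c)
  have b2 := bl_close (s2.1 c)
  have hsl1 : |sl F w i (ω c) k| ≤ 1 := sl_le F (s1.2 c) hw k
  have hp : (0:ℝ) < 2 ^ (s * F.n i) := by positivity
  -- the floors
  have f1 : ⌊(oo F i (ω' c) k - tt F i (ω' c) * sl F w i (ω' c) k) / 2 ^ (s * F.n i)⌋ =
      ⌊(oo F i (ω c) k - tt F i (ω c) * sl F w i (ω c) k) / 2 ^ (s * F.n i)⌋ := congrFun h1 k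
  have f2 := floor_eq_close f1
  rw [hsl, ← sub_div, abs_div, abs_of_pos hp, div_le_iff₀ hp, one_mul] at f2
  set v := sl F w i (ω c) k with hv
  set q : ℝ := 2 ^ (s * F.n i) with hq
  have g1 : ∀ x : ℝ, |x| ≤ q → |x * v| ≤ q := by
    intro x hx
    rw [abs_mul]
    calc |x| * |v| ≤ q * 1 := mul_le_mul hx hsl1 (abs_nonneg _) hp.le
      _ = q := mul_one q
  have a1 := abs_le.1 (g1 _ b1.1)
  have a2 := abs_le.1 (g1 _ b2.1)
  have a3 := abs_le.1 (b1.2 k)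
  have a4 := abs_le.1 (b2.2 k)
  have a5 := abs_le.1 f2
  rw [abs_le]
  constructor
  · nlinarith [a1.1, a1.2, a2.1, a2.2, a3.1, a3.2, a4.1, a4.2, a5.1, a5.2]
  · nlinarith [a1.1, a1.2, a2.1, a2.2, a3.1, a3.2, a4.1, a4.2, a5.1, a5.2]

/-- the coordinate which vanishes on `b` is known from the projection along `b` -/
theorem zero_xx (hw : w ≤ K) (a b c : Fin 3) (hc : c = a ∨ c = b) :
    (C3 F s).hc (xx F s w a b) (Sys.pr ((e3 F s c).pull (NS.pj F s w)) (ZZ F s w)) = 0 := by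
  refine zero_int 21 _ _ (Eventually.of_forall fun i ω ω' hω hω' h => ?_)
  have hsupp := cp_supp F.S (NS.bl F s) 2 hω
  have hZ : ZZ F s w i ω' = ZZ F s w i ω := congrArg Prod.snd h
  have k1 := proj_close hw hω hω' h
  have hu : ∀ j k, |sl F w i (ω j) k| ≤ 1 := fun j k => sl_le F (hsupp.2 j) hw k
  have hp : (0:ℝ) < 2 ^ (s * F.n i) := by positivity
  have key : |X3 (oo F i (ω' 0)) (tt F i (ω' 0)) (sl F w i (ω a)) (sl F w i (ω b)) -
      X3 (oo F i (ω 0)) (tt F i (ω 0)) (sl F w i (ω a)) (sl F w i (ω b))| ≤ 4 * (5 * 2 ^ (s * F.n i)) := by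
    rcases hc with rfl | rfl
    · exact X3_lip' (hu _) (hu _) k1
    · exact X3_lip (hu _) (hu _) k1
  have h3 : xx F s w a b i ω' =
      ⌊X3 (oo F i (ω' 0)) (tt F i (ω' 0)) (sl F w i (ω a)) (sl F w i (ω b)) / 2 ^ (s * F.n i)⌋ := by
    unfold xx
    rw [ZZ_eq hZ a, ZZ_eq hZ b]
  have h4 : xx F s w a b i ω =
      ⌊X3 (oo F i (ω 0)) (tt F i (ω 0)) (sl F w i (ω a)) (sl F w i (ω b)) / 2 ^ (s * F.n i)⌋ := rfl
  rw [h3, h4]
  have h5 := NS.floor_near' (C := 20)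
    (x := X3 (oo F i (ω' 0)) (tt F i (ω' 0)) (sl F w i (ω a)) (sl F w i (ω b)) / 2 ^ (s * F.n i))
    (y := X3 (oo F i (ω 0)) (tt F i (ω 0)) (sl F w i (ω a)) (sl F w i (ω b)) / 2 ^ (s * F.n i)) (by
      rw [← sub_div, abs_div, abs_of_pos hp, div_le_iff₀ hp]
      push_cast
      linarith)
  push_cast at h5 ⊢
  linarith

/-- the coordinates are tame -/
theorem tame_xx (hw : w ≤ K) (a b : Fin 3) : Tame (xx F s w a b) := by
  have hK := NS.Kpos F
  set C' : ℝ := F.C + 1 + (F.C + 2) * K with hC'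
  have hC := Vale.Agent.P122.K931.C_nonneg F
  have hC'0 : 0 ≤ C' := by positivity
  have hbd : (C3 F s).Bd (fun i => 2 * K * F.n i) := Vale.Agent.P122.K931.bd_2K F hK
  refine Vale.Agent.P122.K931.tame_int hbd (⌈4 * (C' + 1)⌉₊ + 1) _ (Eventually.of_forall fun i ω hω => ?_)
  have hsupp := cp_supp F.S (NS.bl F s) 2 hω
  have hT := Vale.Agent.P122.K931.T_bd F (hsupp.2 0) (Nat.zero_le K)
  have hO := Vale.Agent.P122.K931.o_bd F (hsupp.2 0) (Nat.zero_le K)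
  have hu : ∀ j k, |sl F w i (ω j) k| ≤ 1 := fun j k => sl_le F (hsupp.2 j) hw k
  set q : ℝ := 2 ^ (2 * K * F.n i) with hq
  have hq1 : 1 ≤ q := one_le_pow₀ (by norm_num)
  have hT' : |tt F i (ω 0)| ≤ q := by
    unfold tt
    have h1 : (0:ℝ) ≤ ((F.N 0 i (ω 0)).T : ℝ) := by exact_mod_cast hT.1
    have h2 : ((F.N 0 i (ω 0)).T : ℝ) ≤ q := by rw [hq]; exact_mod_cast hT.2.le
    rwa [abs_of_nonneg h1]
  have hX : |X3 (oo F i (ω 0)) (tt F i (ω 0)) (sl F w i (ω a)) (sl F w i (ω b)) - X3 (fun _ => 0) 0 (sl F w i (ω a))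
      (sl F w i (ω b))| ≤ 4 * ((C' + 1) * q) := by
    refine X3_lip (hu a) (hu b) fun k => ?_
    have h1 : |oo F i (ω 0) k| ≤ C' * q := hO k
    have h2 : |tt F i (ω 0) * sl F w i (ω b) k| ≤ q := by
      rw [abs_mul]
      calc _ ≤ q * 1 := mul_le_mul hT' (hu b k) (abs_nonneg _) (by linarith)
        _ = q := mul_one q
    have e1 : oo F i (ω 0) k - tt F i (ω 0) * sl F w i (ω b) k - (0 - 0 * sl F w i (ω b) k) =
        oo F i (ω 0) k - tt F i (ω 0) * sl F w i (ω b) k := by ring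
    rw [e1]
    have a1 := abs_le.1 h1
    have a2 := abs_le.1 h2
    rw [abs_le]
    constructor <;> linarith [a1.1, a1.2, a2.1, a2.2]
  have hX0 : X3 (fun _ => 0) 0 (sl F w i (ω a)) (sl F w i (ω b)) = 0 := by
    unfold X3
    ring
  rw [hX0, sub_zero] at hX
  have hp : (1:ℝ) ≤ 2 ^ (s * F.n i) := one_le_pow₀ (by norm_num)
  set X := X3 (oo F i (ω 0)) (tt F i (ω 0)) (sl F w i (ω a)) (sl F w i (ω b)) with hXd
  have h1 : |X / 2 ^ (s * F.n i)| ≤ 4 * ((C' + 1) * q) := by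
    rw [abs_div, abs_of_pos (by linarith : (0:ℝ) < 2 ^ (s * F.n i))]
    exact (div_le_self (abs_nonneg _) hp).trans hX
  have h2 : |((⌊X / 2 ^ (s * F.n i)⌋ : ℤ) : ℝ)| ≤ |X / 2 ^ (s * F.n i)| + 1 := by
    have g1 := Int.floor_le (X / 2 ^ (s * F.n i))
    have g2 := Int.lt_floor_add_one (X / 2 ^ (s * F.n i))
    have g3 := abs_le.1 (le_refl |X / 2 ^ (s * F.n i)|)
    rw [abs_le]
    constructor <;> linarith [g3.1, g3.2]
  show |((⌊X / 2 ^ (s * F.n i)⌋ : ℤ) : ℝ)| ≤ _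
  have h3 : 4 * (C' + 1) ≤ (⌈4 * (C' + 1)⌉₊ : ℝ) := Nat.le_ceil _
  push_cast
  nlinarith

end lw

end Vale.Agent.P076.H732
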